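import Vale.Agent.P134.H355.FlatU
import Vale.Agent.P134.H919.MonoY
import Vale.Agent.P134.M4.Defs

/-!
# P134, block M4-1.8 : `StD`
-/

open MeasureTheory Set Metric Filter Topology

namespace Vale.Agent.P134.H355

open Vale.Agent.P134 Vale.Agent.P134.SM Vale.Agent.P134.H919

section Deficit

variable {n : ℕ} {u : (Fin n → ℝ) → ℝ}

lemma en_le (hu : Sol u) (x : Fin n → ℝ) : en u x ≤ psi u x ^ 2 / 2 := by
  have h := hu.defi_nonneg x
  unfold defi at h
  unfold en psi at *
  linarith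

lemma cr_one {R ρ : ℝ} (hR : 0 < R) (hRρ : R ≤ ρ) {x : Fin n → ℝ} (hx : x ∈ blE n R) :
    cr th ρ x = 1 := by
  apply th_one
  have h1 : rho Finset.univ x ≤ R ^ 2 := hx
  have hρ : 0 < ρ := by linarith
  rw [div_le_one (by positivity)]
  have : R ^ 2 ≤ ρ ^ 2 := by gcongr
  linarith

lemma blE_le_cr (hu : Sol u) {R ρ : ℝ} (hR : 0 < R) (hRρ : R ≤ ρ) :
    ∫ x in blE n R, defi u x ≤ ∫ x, cr th ρ (x - 0) * defi u x := by
  have hρ : 0 < ρ := by linarith
  have hi := integrable_crY (n := n) prof_th.c1 prof_th.zero hρ 0 hu.defi_continuous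
  calc ∫ x in blE n R, defi u x = ∫ x in blE n R, cr th ρ (x - 0) * defi u x := by
        apply setIntegral_congr_fun (isCompact_blE n R).measurableSet
        intro x hx
        simp only [sub_zero, cr_one hR hRρ hx, one_mul]
    _ ≤ ∫ x, cr th ρ (x - 0) * defi u x := by
        apply setIntegral_le_integral hi
        exact Eventually.of_forall fun x => mul_nonneg (cr_nonneg prof_th _ _) (hu.defi_nonneg x)

/-- The energy drop controls the deficit. -/
theorem deficit_le (hn : 0 < n) (hu : Sol u) {R : ℝ} (hR : 0 < R) :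
    ∫ x in blE n R, defi u x ≤ 2 * (2 * R) ^ n / R * (Th u th 0 (2 * R) - Th u th 0 R) := by
  set A := ∫ x in blE n R, defi u x with hA
  have hA0 : 0 ≤ A := setIntegral_nonneg (isCompact_blE n R).measurableSet
    fun x _ => hu.defi_nonneg x
  set a : ℝ := A / 2 / (2 * R) ^ n with ha
  set F : ℝ → ℝ := fun ρ => Th u th 0 ρ - a * ρ with hF
  have hder : ∀ ρ, 0 < ρ → HasDerivAt F (dTh u th 0 ρ / ρ ^ n - a) ρ := by
    intro ρ hρ
    have h1 := hasDerivAt_Th hn hu prof_th.c1 prof_th.zero 0 hρ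
    have h2 : HasDerivAt (fun ρ : ℝ => a * ρ) a ρ := by
      simpa using (hasDerivAt_id ρ).const_mul a
    exact h1.sub h2
  have hmono : MonotoneOn F (Set.Icc R (2 * R)) := by
    apply monotoneOn_of_deriv_nonneg (convex_Icc R (2 * R))
    · intro ρ hρ
      exact (hder ρ (lt_of_lt_of_le hR hρ.1)).continuousAt.continuousWithinAt
    · intro ρ hρ
      rw [interior_Icc] at hρ
      exact (hder ρ (hR.trans hρ.1)).differentiableAt.differentiableWithinAt
    · intro ρ hρ
      rw [interior_Icc] at hρ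
      have hρ0 : 0 < ρ := hR.trans hρ.1
      rw [(hder ρ hρ0).deriv, dTh_split hu prof_th 0 hρ0]
      have h1 := blE_le_cr hu hR hρ.1.le
      have hJ0 : 0 ≤ ∫ x, (- deriv th (rho Finset.univ (x - 0) / ρ ^ 2)) * sY u 0 x ^ 2 :=
        integral_nonneg fun x => mul_nonneg (neg_nonneg.mpr (prof_th.anti _)) (sq_nonneg _)
      have h2 : 0 ≤ 2 / ρ ^ 2 *
          ∫ x, (- deriv th (rho Finset.univ (x - 0) / ρ ^ 2)) * sY u 0 x ^ 2 := by positivity
      have h3 : A / 2 ≤ (1 / 2) * (∫ x, cr th ρ (x - 0) * defi u x)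
        + 2 / ρ ^ 2 * (∫ x, (- deriv th (rho Finset.univ (x - 0) / ρ ^ 2)) * sY u 0 x ^ 2) := by
        linarith
      have h4 : a ≤ ((1 / 2) * (∫ x, cr th ρ (x - 0) * defi u x)
        + 2 / ρ ^ 2 * (∫ x, (- deriv th (rho Finset.univ (x - 0) / ρ ^ 2)) * sY u 0 x ^ 2))
          / ρ ^ n := by
        rw [ha]
        have h5 : ρ ^ n ≤ (2 * R) ^ n := pow_le_pow_left₀ hρ0.le hρ.2.le n
        exact div_le_div₀ ((by positivity : (0:ℝ) ≤ A / 2).trans h3) h3 (by positivity) h5
      linarith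
  have h := hmono ⟨le_rfl, by linarith⟩ ⟨by linarith, le_rfl⟩ (show R ≤ 2 * R by linarith)
  simp only [hF] at h
  have h6 : a * R ≤ Th u th 0 (2 * R) - Th u th 0 R := by linarith
  have h7 : A = 2 * (2 * R) ^ n / R * (a * R) := by
    rw [ha]; field_simp
  rw [h7]
  exact mul_le_mul_of_nonneg_left h6 (by positivity)

/-- bounded monotone functions have small increments. -/
lemma small_incr {f : ℝ → ℝ} (hf : MonotoneOn f (Ioi 0)) {K : ℝ}
    (hK : ∀ R, 1 ≤ R → f R ≤ K) {ε : ℝ} (hε : 0 < ε) :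
    ∀ᶠ R : ℝ in atTop, f (2 * R) - f R ≤ ε := by
  set g : ℝ → ℝ := fun t => f (max t 1) with hg
  have hmono : Monotone g := by
    intro a b hab
    exact hf (show (0:ℝ) < max a 1 from lt_of_lt_of_le one_pos (le_max_right _ _))
      (show (0:ℝ) < max b 1 from lt_of_lt_of_le one_pos (le_max_right _ _)) (max_le_max_right 1 hab)
  have hbdd : BddAbove (range g) := ⟨K, by rintro _ ⟨t, rfl⟩; exact hK _ (le_max_right _ _)⟩
  have hlim := tendsto_atTop_ciSup hmono hbdd
  have hlim2 : Tendsto (fun R : ℝ => g (2 * R)) atTop (𝓝 (⨆ t, g t)) :=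
    hlim.comp (tendsto_id.const_mul_atTop (by norm_num : (0:ℝ) < 2))
  have hd : Tendsto (fun R : ℝ => g (2 * R) - g R) atTop (𝓝 0) := by
    simpa using hlim2.sub hlim
  filter_upwards [hd.eventually (gt_mem_nhds hε), eventually_ge_atTop (1:ℝ)] with R h1 h2
  have e1 : g (2 * R) = f (2 * R) := by simp only [hg]; rw [max_eq_left (by linarith)]
  have e2 : g R = f R := by simp only [hg]; rw [max_eq_left h2]
  rw [e1, e2] at h1
  exact h1.le

lemma Th_le (hu : Sol u) {R : ℝ} (hR : 0 < R) {C : ℝ}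
    (hC : ∫ x in blE n (2 * R), psi u x ^ 2 ≤ C * (2 * R) ^ (n - 1)) :
    Th u th 0 R ≤ C / 2 * 2 ^ (n - 1) := by
  have hen : Continuous (en u) := (en_contDiff hu.c2).continuous
  have hi := integrable_crY (n := n) prof_th.c1 prof_th.zero hR 0 hen
  have cpsi : Continuous (fun x => psi u x ^ 2 / 2) := (hu.psi_contDiff.continuous.pow 2).div_const 2
  have h1 : ∫ x, cr th R (x - 0) * en u x ≤ ∫ x in blE n (2 * R), psi u x ^ 2 / 2 := by
    have e1 : ∫ x, cr th R (x - 0) * en u x = ∫ x in blE n (2 * R), cr th R (x - 0) * en u x := by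
      symm
      apply setIntegral_eq_integral_of_forall_compl_eq_zero
      intro x hx
      have hx' : (2 * R) ^ 2 < rho Finset.univ x := not_le.mp hx
      rw [sub_zero, cr_eq_zero prof_th.zero hR (by nlinarith), zero_mul]
    rw [e1]
    apply setIntegral_mono_on hi.integrableOn
      (cpsi.continuousOn.integrableOn_compact (isCompact_blE n _)) (isCompact_blE n _).measurableSet
    intro x _
    have h2 := en_le hu x
    have h3 := en_nonneg u x
    have h4 := cr_le_one prof_th (n := n) R (x - 0)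
    have h5 := cr_nonneg prof_th (n := n) R (x - 0)
    nlinarith
  have e2 : ∫ x in blE n (2 * R), psi u x ^ 2 / 2 = (∫ x in blE n (2 * R), psi u x ^ 2) / 2 :=
    integral_div _ _
  unfold Th
  rw [div_le_iff₀ (by positivity)]
  calc ∫ x, cr th R (x - 0) * en u x ≤ (∫ x in blE n (2 * R), psi u x ^ 2) / 2 := by
        rw [← e2]; exact h1
    _ ≤ C * (2 * R) ^ (n - 1) / 2 := by linarith
    _ = C / 2 * 2 ^ (n - 1) * R ^ (n - 1) := by rw [mul_pow]; ring

/-- `R^{1-n} ∫_{B_R} D → 0`. -/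
theorem deficit_small (hn : 0 < n) (hu : Sol u) {C : ℝ}
    (hC : ∀ R : ℝ, 1 ≤ R → ∫ x in blE n R, psi u x ^ 2 ≤ C * R ^ (n - 1)) {ε : ℝ} (hε : 0 < ε) :
    ∀ᶠ R : ℝ in atTop, ∫ x in blE n R, defi u x ≤ ε * R ^ (n - 1) := by
  have hmono := Th_mono hn hu prof_th (0 : Fin n → ℝ)
  have hsm := small_incr hmono (K := C / 2 * 2 ^ (n - 1)) (fun R hR => Th_le hu (by linarith)
    (hC (2 * R) (by linarith))) (show 0 < ε / (2 * 2 ^ n) by positivity)
  filter_upwards [hsm, eventually_gt_atTop (0:ℝ)] with R h1 hR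
  refine (deficit_le hn hu hR).trans ?_
  calc 2 * (2 * R) ^ n / R * (Th u th 0 (2 * R) - Th u th 0 R)
      ≤ 2 * (2 * R) ^ n / R * (ε / (2 * 2 ^ n)) := mul_le_mul_of_nonneg_left h1 (by positivity)
    _ = ε * (R ^ n / R) := by rw [mul_pow]; field_simp
    _ = ε * R ^ (n - 1) := by
        congr 1
        obtain ⟨k, rfl⟩ : ∃ k, n = k + 1 := ⟨n - 1, by omega⟩
        rw [pow_succ, Nat.add_sub_cancel]
        field_simp

end Deficit

section StD

variable {u : (Fin 4 → ℝ) → ℝ}

lemma wn_le_psi {n : ℕ} {u : (Fin n → ℝ) → ℝ} (hu : Sol u) (x : Fin n → ℝ) : wn u x ≤ psi u x := by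
  have h1 := hu.defi_nonneg x
  have h2 := hu.psi_nonneg x
  have h3 := wn_sq u x
  have h4 : gs u x = ∑ i, pd i u x ^ 2 := rfl
  unfold defi at h1
  rw [← h4, ← h3] at h1
  have h5 := wn_nonneg u x
  nlinarith

/-- pointwise bound of the support function term. -/
lemma support_le {n : ℕ} {u : (Fin n → ℝ) → ℝ} (hu : Sol u) {x : Fin n → ℝ} (hp : 0 < gs u x)
    {R : ℝ} (hx : x ∈ blE n R) :
    psi u x * wn u x * vs u x ^ 2 ≤ 4 * rd u x ^ 2 + R ^ 2 * defi u x := by
  have hw := wn_pos hp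
  have hpsi := hu.psi_nonneg x
  have hsq := wn_sq u x
  have hD := hu.defi_nonneg x
  have e1 : psi u x * wn u x * vs u x ^ 2 = psi u x / wn u x * rd u x ^ 2 := by
    unfold vs; field_simp
  by_cases hc : psi u x ≤ 4 * wn u x
  · rw [e1]
    have h1 : psi u x / wn u x ≤ 4 := by rw [div_le_iff₀ hw]; exact hc
    have h2 : psi u x / wn u x * rd u x ^ 2 ≤ 4 * rd u x ^ 2 :=
      mul_le_mul_of_nonneg_right h1 (sq_nonneg _)
    have h3 : 0 ≤ R ^ 2 * defi u x := mul_nonneg (sq_nonneg _) hD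
    linarith
  · rw [not_le] at hc
    -- Cauchy-Schwarz
    have h1 : rd u x ^ 2 ≤ rho Finset.univ x * gs u x := by
      unfold rd rho gs
      exact Finset.sum_mul_sq_le_sq_mul_sq _ _ _
    have h2 : vs u x ^ 2 ≤ R ^ 2 := by
      unfold vs
      rw [div_pow, div_le_iff₀ (by positivity), hsq]
      have h3 : rho Finset.univ x ≤ R ^ 2 := hx
      exact h1.trans (mul_le_mul_of_nonneg_right h3 hp.le)
    have h4 : gs u x = ∑ i, pd i u x ^ 2 := rfl
    have h5 : psi u x * wn u x ≤ defi u x := by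
      unfold defi
      rw [← h4, ← hsq]
      nlinarith
    have h6 : 0 ≤ psi u x * wn u x := mul_nonneg hpsi hw.le
    calc psi u x * wn u x * vs u x ^ 2 ≤ defi u x * R ^ 2 :=
          mul_le_mul h5 h2 (sq_nonneg _) hD
      _ ≤ 4 * rd u x ^ 2 + R ^ 2 * defi u x := by
          have := sq_nonneg (rd u x)
          linarith

theorem stD : M4.StD := by
  intro u hu hp hE hS hK
  obtain ⟨C, hC⟩ := hE
  have hdef : ∀ ε : ℝ, 0 < ε → ∀ᶠ R : ℝ in atTop, ∫ x in blE 4 R, defi u x ≤ ε * R ^ 3 :=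
    fun ε hε => deficit_small (n := 4) (by norm_num) hu (C := C) hC hε
  have cpsi := hu.psi_contDiff.continuous
  have cwn := wn_continuous (m := 2) hu
  have hM : ∀ᶠ R : ℝ in atTop, ∫ x in blE (2 + 2) R, psi u x * wn u x ≤ C * R ^ (2 + 1) := by
    filter_upwards [eventually_ge_atTop (1:ℝ)] with R hR
    refine le_trans ?_ (hC R hR)
    apply setIntegral_mono_on
      ((cpsi.mul cwn).continuousOn.integrableOn_compact (isCompact_blE 4 R))
      ((cpsi.pow 2).continuousOn.integrableOn_compact (isCompact_blE 4 R))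
      (isCompact_blE 4 R).measurableSet
    intro x _
    have h1 := wn_le_psi hu x
    have h2 := hu.psi_nonneg x
    change psi u x * wn u x ≤ psi u x ^ 2
    nlinarith
  have hSS : ∀ ε : ℝ, 0 < ε → ∀ᶠ R : ℝ in atTop,
      ∫ x in blE (2 + 2) R, psi u x * wn u x * vs u x ^ 2 ≤ ε * R ^ (2 + 3) := by
    intro ε hε
    filter_upwards [hS (ε / 8) (by positivity), hdef (ε / 2) (by positivity),
      eventually_gt_atTop (0:ℝ)] with R h1 h2 hR
    have crd : Continuous (rd u) := (Sol.rd_c2 hu).continuous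
    have cvs : Continuous (vs u) := crd.div cwn fun x => (wn_pos (hp x)).ne'
    have i1 : IntegrableOn (fun x => psi u x * wn u x * vs u x ^ 2) (blE 4 R) :=
      ((cpsi.mul cwn).mul (cvs.pow 2)).continuousOn.integrableOn_compact (isCompact_blE 4 R)
    have i2 : IntegrableOn (fun x => 4 * rd u x ^ 2) (blE 4 R) :=
      (continuous_const.mul (crd.pow 2)).continuousOn.integrableOn_compact (isCompact_blE 4 R)
    have i3 : IntegrableOn (fun x => R ^ 2 * defi u x) (blE 4 R) :=
      (continuous_const.mul hu.defi_continuous).continuousOn.integrableOn_compact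
        (isCompact_blE 4 R)
    calc ∫ x in blE (2 + 2) R, psi u x * wn u x * vs u x ^ 2
        ≤ ∫ x in blE 4 R, (4 * rd u x ^ 2 + R ^ 2 * defi u x) :=
          setIntegral_mono_on i1 (i2.add i3) (isCompact_blE 4 R).measurableSet
            fun x hx => support_le hu (hp x) hx
      _ = 4 * (∫ x in blE 4 R, rd u x ^ 2) + R ^ 2 * ∫ x in blE 4 R, defi u x := by
          rw [integral_add i2 i3, integral_const_mul, integral_const_mul]
      _ ≤ 4 * (ε / 8 * R ^ 5) + R ^ 2 * (ε / 2 * R ^ 3) := by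
          have : ∫ x in blE 4 R, rd u x ^ 2 ≤ ε / 8 * R ^ 5 := h1
          gcongr
      _ = ε * R ^ (2 + 3) := by ring
  exact flat_u (m := 2) hu hp hM hK hSS

end StD

end Vale.Agent.P134.H355
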