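import Mathlib

/-!
# P134, block M4-B1: averaging over segments in a convex compact set
-/

open MeasureTheory Set

namespace Vale.Agent.P134.H355

section Seg

variable {d : ℕ} {Z : Set (Fin d → ℝ)} {K : (Fin d → ℝ) → ℝ}

lemma integrable_prod_of_continuous {X Y : Type*} [TopologicalSpace X] [TopologicalSpace Y]
    [MeasurableSpace X] [MeasurableSpace Y] [BorelSpace X] [BorelSpace Y]
    [SecondCountableTopology X] [SecondCountableTopology Y] [T2Space X] [T2Space Y]
    {μ : Measure X} {ν : Measure Y} [IsLocallyFiniteMeasure μ] [IsLocallyFiniteMeasure ν]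
    [SFinite μ] [SFinite ν] [SigmaFinite μ] [SigmaFinite ν]
    {f : X → Y → ℝ} (hf : Continuous (Function.uncurry f)) {s : Set X} {t : Set Y}
    (hs : IsCompact s) (ht : IsCompact t) :
    Integrable (Function.uncurry f) ((μ.restrict s).prod (ν.restrict t)) := by
  rw [Measure.prod_restrict]
  exact hf.continuousOn.integrableOn_compact (hs.prod ht)

lemma swap_set {X Y : Type*} [TopologicalSpace X] [TopologicalSpace Y]
    [MeasurableSpace X] [MeasurableSpace Y] [BorelSpace X] [BorelSpace Y]
    [SecondCountableTopology X] [SecondCountableTopology Y] [T2Space X] [T2Space Y]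
    {μ : Measure X} {ν : Measure Y} [IsLocallyFiniteMeasure μ] [IsLocallyFiniteMeasure ν]
    [SFinite μ] [SFinite ν] [SigmaFinite μ] [SigmaFinite ν]
    {f : X → Y → ℝ} (hf : Continuous (Function.uncurry f)) {s : Set X} {t : Set Y}
    (hs : IsCompact s) (ht : IsCompact t) :
    ∫ x in s, ∫ y in t, f x y ∂ν ∂μ = ∫ y in t, ∫ x in s, f x y ∂μ ∂ν :=
  integral_integral_swap (integrable_prod_of_continuous hf hs ht)

lemma swap_interval {X : Type*} [TopologicalSpace X]
    [MeasurableSpace X] [BorelSpace X]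
    [SecondCountableTopology X] [T2Space X]
    {μ : Measure X} [IsLocallyFiniteMeasure μ]
    [SFinite μ] [SigmaFinite μ]
    {f : X → ℝ → ℝ} (hf : Continuous (Function.uncurry f)) {s : Set X}
    (hs : IsCompact s) {a b : ℝ} (hab : a ≤ b) :
    ∫ x in s, (∫ y in a..b, f x y) ∂μ = ∫ y in a..b, ∫ x in s, f x y ∂μ := by
  simp only [intervalIntegral.integral_of_le hab, ← integral_Icc_eq_integral_Ioc]
  exact swap_set hf hs isCompact_Icc

lemma seg_mem (hZ : Convex ℝ Z) {z z' : Fin d → ℝ} (hz : z ∈ Z) (hz' : z' ∈ Z) {l : ℝ}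
    (h0 : 0 ≤ l) (h1 : l ≤ 1) : z' + l • (z - z') ∈ Z :=
  hZ.add_smul_sub_mem hz' hz ⟨h0, h1⟩

lemma seg_half (hZ : Convex ℝ Z) (hc : IsCompact Z) (hK : Continuous K) (hK0 : ∀ x, 0 ≤ K x)
    {z : Fin d → ℝ} (hz : z ∈ Z) {l : ℝ} (h0 : 0 ≤ l) (h1 : l ≤ 1 / 2) :
    ∫ z' in Z, K (z' + l • (z - z')) ≤ 2 ^ d * ∫ w in Z, K w := by
  have hmZ : MeasurableSet Z := hc.measurableSet
  set KZ : (Fin d → ℝ) → ℝ := Z.indicator K with hKZ
  have hKZ0 : ∀ x, 0 ≤ KZ x := fun x => Set.indicator_nonneg (fun y _ => hK0 y) x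
  have hKZi : Integrable KZ volume := by
    rw [hKZ, integrable_indicator_iff hmZ]
    exact hK.continuousOn.integrableOn_compact hc
  have hl : 0 < 1 - l := by linarith
  have e1 : ∀ z' : Fin d → ℝ, z' + l • (z - z') = (1 - l) • z' + l • z := by
    intro z'
    ext i
    simp
    ring
  have hint : Integrable (fun z' : Fin d → ℝ => KZ ((1 - l) • z' + l • z)) volume := by
    have := (hKZi.comp_add_right (l • z)).comp_smul (R := (1 - l)) hl.ne'
    exact this
  have s1 : ∫ z' in Z, K (z' + l • (z - z')) = ∫ z' in Z, KZ ((1 - l) • z' + l • z) := by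
    apply setIntegral_congr_fun hmZ
    intro z' hz'
    have hm : z' + l • (z - z') ∈ Z := seg_mem hZ hz hz' h0 (by linarith)
    simp only [hKZ]
    rw [← e1, Set.indicator_of_mem hm]
  have s2 : ∫ z' in Z, KZ ((1 - l) • z' + l • z) ≤ ∫ z', KZ ((1 - l) • z' + l • z) :=
    setIntegral_le_integral hint (Filter.Eventually.of_forall fun x => hKZ0 _)
  have s3 : ∫ z' : Fin d → ℝ, KZ ((1 - l) • z' + l • z)
      = ((1 - l) ^ d)⁻¹ * ∫ w in Z, K w := by
    have := Measure.integral_comp_smul (μ := (volume : Measure (Fin d → ℝ)))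
      (fun w => KZ (w + l • z)) (1 - l)
    rw [this, integral_add_right_eq_self (fun w => KZ w) (l • z)]
    simp only [Module.finrank_fin_fun, smul_eq_mul]
    rw [abs_of_pos (by positivity), hKZ, integral_indicator hmZ]
  rw [s1]
  refine s2.trans ?_
  rw [s3]
  apply mul_le_mul_of_nonneg_right _ (setIntegral_nonneg hmZ fun x _ => hK0 x)
  rw [inv_le_comm₀ (by positivity) (by positivity)]
  calc ((2:ℝ) ^ d)⁻¹ = (1 / 2) ^ d := by simp
    _ ≤ (1 - l) ^ d := pow_le_pow_left₀ (by norm_num) (by linarith) d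

lemma seg_half_int (hZ : Convex ℝ Z) (hc : IsCompact Z) (hK : Continuous K)
    (hK0 : ∀ x, 0 ≤ K x) {z : Fin d → ℝ} (hz : z ∈ Z) :
    ∫ z' in Z, ∫ l in (0:ℝ)..(1/2), K (z' + l • (z - z')) ≤ 2 ^ d / 2 * ∫ w in Z, K w := by
  rw [swap_interval (f := fun z' l => K (z' + l • (z - z'))) (by fun_prop) hc (by norm_num)]
  have hcont : Continuous fun l : ℝ => ∫ z' in Z, K (z' + l • (z - z')) :=
    continuous_parametric_integral_of_continuous
      (f := fun (l : ℝ) (z' : Fin d → ℝ) => K (z' + l • (z - z'))) (by fun_prop) hc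
  calc ∫ l in (0:ℝ)..(1/2), ∫ z' in Z, K (z' + l • (z - z'))
      ≤ ∫ l in (0:ℝ)..(1/2), 2 ^ d * ∫ w in Z, K w := by
        apply intervalIntegral.integral_mono_on (by norm_num) (hcont.intervalIntegrable _ _)
          (continuous_const.intervalIntegrable _ _)
        intro l hl
        exact seg_half hZ hc hK hK0 hz hl.1 hl.2
    _ = 2 ^ d / 2 * ∫ w in Z, K w := by
        rw [intervalIntegral.integral_const]
        simp only [smul_eq_mul]
        ring

/-- mean over the segment. -/
noncomputable def segM (K : (Fin d → ℝ) → ℝ) (z z' : Fin d → ℝ) : ℝ :=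
  ∫ l in (0:ℝ)..1, K (z' + l • (z - z'))

lemma continuous_segM (hK : Continuous K) : Continuous (Function.uncurry (segM K)) := by
  unfold segM
  simp only [Function.uncurry_def]
  exact intervalIntegral.continuous_parametric_intervalIntegral_of_continuous'
    (f := fun (p : (Fin d → ℝ) × (Fin d → ℝ)) (l : ℝ) => K (p.2 + l • (p.1 - p.2)))
    (by fun_prop) _ _

lemma segM_nonneg (hK0 : ∀ x, 0 ≤ K x) (z z' : Fin d → ℝ) : 0 ≤ segM K z z' :=
  intervalIntegral.integral_nonneg (by norm_num) fun _ _ => hK0 _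

lemma segM_eq (hK : Continuous K) (z z' : Fin d → ℝ) :
    segM K z z' = (∫ l in (0:ℝ)..(1/2), K (z' + l • (z - z')))
      + ∫ l in (0:ℝ)..(1/2), K (z + l • (z' - z)) := by
  have hc : Continuous fun l : ℝ => K (z' + l • (z - z')) := by fun_prop
  have h2 : ∫ l in (0:ℝ)..(1/2), K (z + l • (z' - z))
      = ∫ l in (1/2:ℝ)..1, K (z' + l • (z - z')) := by
    have := intervalIntegral.integral_comp_sub_left (a := (0:ℝ)) (b := 1/2)
      (fun l => K (z' + l • (z - z'))) 1
    norm_num at this
    rw [← this]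
    norm_num
    apply intervalIntegral.integral_congr
    intro l _
    simp only
    congr 1
    ext i
    simp
    ring
  rw [h2, segM, intervalIntegral.integral_add_adjacent_intervals (hc.intervalIntegrable _ _)
    (hc.intervalIntegrable _ _)]

/-- **Segment lemma.** -/
lemma seg_avg (hZ : Convex ℝ Z) (hc : IsCompact Z) (hK : Continuous K)
    (hK0 : ∀ x, 0 ≤ K x) :
    ∫ z in Z, ∫ z' in Z, segM K z z' ≤ 2 ^ d * (volume Z).toReal * ∫ w in Z, K w := by
  set F : (Fin d → ℝ) → (Fin d → ℝ) → ℝ := fun z z' => ∫ l in (0:ℝ)..(1/2), K (z' + l • (z - z'))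
    with hF
  have hmZ : MeasurableSet Z := hc.measurableSet
  have hFc : Continuous (Function.uncurry F) := by
    simp only [hF, Function.uncurry_def]
    exact intervalIntegral.continuous_parametric_intervalIntegral_of_continuous'
      (f := fun (p : (Fin d → ℝ) × (Fin d → ℝ)) (l : ℝ) => K (p.2 + l • (p.1 - p.2)))
      (by fun_prop) _ _
  have hFc' : Continuous (Function.uncurry fun z z' => F z' z) := by
    exact hFc.comp continuous_swap
  have hsum : ∀ z z', segM K z z' = F z z' + F z' z := fun z z' => segM_eq hK z z'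
  have hin : ∀ z, ∫ z' in Z, segM K z z' = (∫ z' in Z, F z z') + ∫ z' in Z, F z' z := by
    intro z
    simp only [hsum]
    apply integral_add
    · exact (Continuous.continuousOn (hFc.comp
        (Continuous.prodMk continuous_const continuous_id))).integrableOn_compact hc
    · exact (Continuous.continuousOn (hFc.comp
        (Continuous.prodMk continuous_id continuous_const))).integrableOn_compact hc
  have c1 : Continuous fun z => ∫ z' in Z, F z z' :=
    continuous_parametric_integral_of_continuous hFc hc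
  have c2 : Continuous fun z => ∫ z' in Z, F z' z :=
    continuous_parametric_integral_of_continuous hFc' hc
  have hA : ∫ z in Z, ∫ z' in Z, F z z' ≤ (volume Z).toReal * (2 ^ d / 2 * ∫ w in Z, K w) := by
    calc ∫ z in Z, ∫ z' in Z, F z z' ≤ ∫ _z in Z, (2 ^ d / 2 * ∫ w in Z, K w) := by
          apply setIntegral_mono_on (c1.continuousOn.integrableOn_compact hc)
            (continuousOn_const.integrableOn_compact hc) hmZ
          intro z hz
          exact seg_half_int hZ hc hK hK0 hz
      _ = _ := by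
          rw [setIntegral_const]
          simp [Measure.real]
  have hB : ∫ z in Z, ∫ z' in Z, F z' z = ∫ z in Z, ∫ z' in Z, F z z' :=
    swap_set hFc' hc hc
  calc ∫ z in Z, ∫ z' in Z, segM K z z' = ∫ z in Z, ((∫ z' in Z, F z z') + ∫ z' in Z, F z' z) := by
        simp only [hin]
    _ = (∫ z in Z, ∫ z' in Z, F z z') + ∫ z in Z, ∫ z' in Z, F z' z :=
        integral_add (c1.continuousOn.integrableOn_compact hc)
          (c2.continuousOn.integrableOn_compact hc)
    _ ≤ _ := by
        rw [hB]
        nlinarith [hA]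

end Seg

end Vale.Agent.P134.H355
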