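import Vale.Agent.P134.H355.Chen2D
import Vale.Agent.P134.H355.Seg

/-!
# P134, block M4-B1: the Chen lemma in the ambient space
-/

open MeasureTheory Set

namespace Vale.Agent.P134.H355

section Amb

variable {E : Type*} [NormedAddCommGroup E] [NormedSpace ℝ E] {G f h : E → ℝ}

/-- density `f dG(b)`. -/
noncomputable def den (G f : E → ℝ) (b x : E) : ℝ := f x * fderiv ℝ G x b

/-- derivative of the density in direction `v`. -/
noncomputable def dden (G f : E → ℝ) (b v x : E) : ℝ :=
  fderiv ℝ f x v * fderiv ℝ G x b + f x * fderiv ℝ (fderiv ℝ G) x v b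

/-- curl -/
noncomputable def crl (G f : E → ℝ) (b a x : E) : ℝ :=
  fderiv ℝ f x a * fderiv ℝ G x b - fderiv ℝ f x b * fderiv ℝ G x a

lemma hasDerivAt_den_line (hG : ContDiff ℝ 2 G) (hf : ContDiff ℝ 1 f) (b x v : E) (s : ℝ) :
    HasDerivAt (fun s : ℝ => den G f b (x + s • v)) (dden G f b v (x + s • v)) s := by
  have hline : HasDerivAt (fun s : ℝ => x + s • v) v s := by
    simpa using ((hasDerivAt_id s).smul_const v).const_add x
  have h1 : HasFDerivAt f (fderiv ℝ f (x + s • v)) (x + s • v) :=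
    ((hf.differentiable (by norm_num)) _).hasFDerivAt
  have h2 : HasFDerivAt (fderiv ℝ G) (fderiv ℝ (fderiv ℝ G) (x + s • v)) (x + s • v) :=
    (((hG.fderiv_right (m := 1) (by norm_num)).differentiable (by norm_num)) _).hasFDerivAt
  have d1 := h1.comp_hasDerivAt s hline
  have d2 := h2.comp_hasDerivAt s hline
  have d3 := d1.mul (d2.clm_apply (hasDerivAt_const s b))
  refine d3.congr_deriv ?_
  simp [dden, Function.comp]

lemma continuous_fderiv_apply' (hf : ContDiff ℝ 1 f) (v : E) :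
    Continuous fun x => fderiv ℝ f x v :=
  (hf.continuous_fderiv (by norm_num)).clm_apply continuous_const

lemma continuous_fderiv2_apply (hG : ContDiff ℝ 2 G) (v b : E) :
    Continuous fun x => fderiv ℝ (fderiv ℝ G) x v b :=
  (((hG.fderiv_right (m := 1) (by norm_num)).continuous_fderiv (by norm_num)).clm_apply
    continuous_const).clm_apply continuous_const

lemma ContDiff.one_of_two (hG : ContDiff ℝ 2 G) : ContDiff ℝ 1 G := hG.of_le (by norm_num)

lemma continuous_den (hG : ContDiff ℝ 2 G) (hf : ContDiff ℝ 1 f) (b : E) :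
    Continuous (den G f b) :=
  hf.continuous.mul (continuous_fderiv_apply' (hG.of_le (by norm_num)) b)

lemma continuous_crl (hG : ContDiff ℝ 2 G) (hf : ContDiff ℝ 1 f) (b a : E) :
    Continuous (crl G f b a) :=
  ((continuous_fderiv_apply' hf a).mul (continuous_fderiv_apply' (hG.of_le (by norm_num)) b)).sub
    ((continuous_fderiv_apply' hf b).mul (continuous_fderiv_apply' (hG.of_le (by norm_num)) a))

lemma continuous_dden (hG : ContDiff ℝ 2 G) (hf : ContDiff ℝ 1 f) (b v : E) :
    Continuous (dden G f b v) :=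
  ((continuous_fderiv_apply' hf v).mul (continuous_fderiv_apply' (hG.of_le (by norm_num)) b)).add
    (hf.continuous.mul (continuous_fderiv2_apply hG v b))

lemma fderiv2_symm (hG : ContDiff ℝ 2 G) (x v b : E) :
    fderiv ℝ (fderiv ℝ G) x v b = fderiv ℝ (fderiv ℝ G) x b v :=
  (hG.contDiffAt.isSymmSndFDerivAt (by simp)) v b

/-- point of the plane -/
def pt (x0 a b : E) (l t : ℝ) : E := x0 + l • a + t • b

lemma continuous_pt (x0 a b : E) : Continuous (Function.uncurry (pt x0 a b)) := by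
  unfold pt
  simp only [Function.uncurry_def]
  fun_prop

theorem pair_amb (hG : ContDiff ℝ 2 G) (hf : ContDiff ℝ 1 f) (hh : ContDiff ℝ 1 h)
    (x0 a b : E) (hf0 : ∀ x, 0 ≤ den G f b x) (hh0 : ∀ x, 0 ≤ den G h b x) :
    Pair (fun l t => den G f b (pt x0 a b l t)) (fun l t => den G h b (pt x0 a b l t))
      (fun l t => den G f a (pt x0 a b l t)) (fun l t => dden G f a b (pt x0 a b l t))
      (fun l t => den G h a (pt x0 a b l t)) (fun l t => dden G h a b (pt x0 a b l t))
      (fun l t => crl G f b a (pt x0 a b l t)) (fun l t => crl G h b a (pt x0 a b l t)) := by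
  have hc := continuous_pt x0 a b
  have key : ∀ (k : E → ℝ), ContDiff ℝ 1 k → ∀ l t, HasDerivAt
      (fun l => den G k b (pt x0 a b l t))
      (dden G k a b (pt x0 a b l t) + crl G k b a (pt x0 a b l t)) l := by
    intro k hk l t
    have h1 := hasDerivAt_den_line hG hk b (x0 + t • b) a l
    have e : ∀ l : ℝ, pt x0 a b l t = x0 + t • b + l • a := by
      intro l; unfold pt; abel
    simp only [e]
    refine h1.congr_deriv ?_
    simp only [dden, crl]
    rw [fderiv2_symm hG _ a b]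
    ring
  have key2 : ∀ (k : E → ℝ), ContDiff ℝ 1 k → ∀ l t, HasDerivAt
      (fun t => den G k a (pt x0 a b l t)) (dden G k a b (pt x0 a b l t)) t := by
    intro k hk l t
    exact hasDerivAt_den_line hG hk a (x0 + l • a) b t
  refine ⟨(continuous_den hG hf b).comp hc, (continuous_den hG hh b).comp hc,
    (continuous_den hG hf a).comp hc, (continuous_den hG hh a).comp hc,
    (continuous_dden hG hf a b).comp hc, (continuous_dden hG hh a b).comp hc,
    (continuous_crl hG hf b a).comp hc, (continuous_crl hG hh b a).comp hc,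
    key f hf, key h hh, key2 f hf, key2 h hh, ?_, fun l t => hf0 _, fun l t => hh0 _⟩
  intro l t
  simp only [den]
  ring

end Amb

section Avg

variable {E : Type*} [NormedAddCommGroup E] [NormedSpace ℝ E] {G f h : E → ℝ}
variable {d : ℕ} {Z : Set (Fin d → ℝ)}

/-- total `f`-mass on the line over `z`. -/
noncomputable def massP (T : ℝ) (G f : E → ℝ) (ι : (Fin d → ℝ) →L[ℝ] E) (b : E)
    (z : Fin d → ℝ) : ℝ := prim T (fun t => den G f b (ι z + t • b)) T

/-- Chen functional on the line over `z`. -/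
noncomputable def chenZ (T : ℝ) (G f h : E → ℝ) (ι : (Fin d → ℝ) →L[ℝ] E) (b : E)
    (z : Fin d → ℝ) : ℝ :=
  chenJ T (fun t => den G f b (ι z + t • b)) (fun t => den G h b (ι z + t • b))

/-- the local error function -/
noncomputable def KK (T : ℝ) (mf mh k : E → ℝ) (ι : (Fin d → ℝ) →L[ℝ] E) (b : E)
    (z : Fin d → ℝ) : ℝ :=
  mf (ι z + T • b) + mf (ι z + (-T) • b) + mh (ι z + T • b) + mh (ι z + (-T) • b)
    + 2 * ∫ t in (-T)..T, k (ι z + t • b)

/-- Hypotheses of the Chen lemma. -/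
structure Dat (G f h mf mh k : E → ℝ) (b : E) : Prop where
  cG : ContDiff ℝ 2 G
  cf : ContDiff ℝ 1 f
  ch : ContDiff ℝ 1 h
  f0 : ∀ x, 0 ≤ den G f b x
  h0 : ∀ x, 0 ≤ den G h b x
  cmf : Continuous mf
  cmh : Continuous mh
  ck : Continuous k
  mf0 : ∀ x, 0 ≤ mf x
  mh0 : ∀ x, 0 ≤ mh x
  k0 : ∀ x, 0 ≤ k x
  bf : ∀ x v, |den G f v x| ≤ mf x * ‖v‖
  bh : ∀ x v, |den G h v x| ≤ mh x * ‖v‖
  kf : ∀ x v, |crl G f b v x| ≤ k x * ‖v‖
  kh : ∀ x v, |crl G h b v x| ≤ k x * ‖v‖

variable {mf mh k : E → ℝ} {b : E} {ι : (Fin d → ℝ) →L[ℝ] E} {T : ℝ}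

lemma Dat.swap (D : Dat G f h mf mh k b) : Dat G h f mh mf k b :=
  ⟨D.cG, D.ch, D.cf, D.h0, D.f0, D.cmh, D.cmf, D.ck, D.mh0, D.mf0, D.k0, D.bh, D.bf, D.kh, D.kf⟩

lemma Dat.continuous_KK (D : Dat G f h mf mh k b) : Continuous (KK T mf mh k ι b) := by
  have h1 := D.cmf
  have h2 := D.cmh
  have h3 := D.ck
  have h4 : Continuous fun z : Fin d → ℝ => ∫ t in (-T)..T, k (ι z + t • b) :=
    intervalIntegral.continuous_parametric_intervalIntegral_of_continuous'
      (f := fun (z : Fin d → ℝ) (t : ℝ) => k (ι z + t • b)) (by fun_prop) _ _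
  unfold KK
  fun_prop

lemma Dat.KK_nonneg (D : Dat G f h mf mh k b) (hT : 0 ≤ T) (z : Fin d → ℝ) :
    0 ≤ KK T mf mh k ι b z := by
  have h1 := D.mf0 (ι z + T • b)
  have h2 := D.mf0 (ι z + (-T) • b)
  have h3 := D.mh0 (ι z + T • b)
  have h4 := D.mh0 (ι z + (-T) • b)
  have h5 : 0 ≤ ∫ t in (-T)..T, k (ι z + t • b) :=
    intervalIntegral.integral_nonneg (by linarith) fun t _ => D.k0 _
  unfold KK
  positivity

lemma pt_eq (z z' : Fin d → ℝ) (l t : ℝ) :
    pt (ι z') (ι (z - z')) b l t = ι (z' + l • (z - z')) + t • b := by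
  simp [pt]

lemma Dat.chen_diff (D : Dat G f h mf mh k b) (hT : 0 ≤ T) (z z' : Fin d → ℝ) :
    |chenZ T G f h ι b z - chenZ T G f h ι b z'|
      ≤ 4 * (‖ι (z - z')‖ * segM (KK T mf mh k ι b) z z') := by
  have P := pair_amb D.cG D.cf D.ch (ι z') (ι (z - z')) b D.f0 D.h0
  have h1 := P.chenJ_diff (T := T) hT
  simp only [pt_eq] at h1
  have e1 : z' + (1:ℝ) • (z - z') = z := by simp
  have e0 : z' + (0:ℝ) • (z - z') = z' := by simp
  rw [e1, e0] at h1
  refine h1.trans ?_
  unfold segM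
  rw [← intervalIntegral.integral_const_mul ‖ι (z - z')‖]
  apply mul_le_mul_of_nonneg_left _ (by norm_num)
  have hKc : Continuous fun l : ℝ => ‖ι (z - z')‖ * KK T mf mh k ι b (z' + l • (z - z')) := by
    have := D.continuous_KK (T := T) (ι := ι)
    fun_prop
  have hk := P.continuous_kk (T := T)
  simp only [pt_eq] at hk
  apply intervalIntegral.integral_mono_on (by norm_num) (hk.intervalIntegrable _ _)
    (hKc.intervalIntegrable _ _)
  intro l _
  unfold kk KK
  set w := z' + l • (z - z') with hw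
  set v := ι (z - z') with hv
  have hTT : -T ≤ T := by linarith
  have b1 : |den G h v (ι w + T • b)| ≤ mh (ι w + T • b) * ‖v‖ := D.bh _ _
  have b2 : |den G f v (ι w + (-T) • b)| ≤ mf (ι w + (-T) • b) * ‖v‖ := D.bf _ _
  have b3 : |den G h v (ι w + (-T) • b)| ≤ mh (ι w + (-T) • b) * ‖v‖ := D.bh _ _
  have ck : Continuous fun t : ℝ => k (ι w + t • b) := by
    have := D.ck
    fun_prop
  have cr : ∀ (g : E → ℝ), ContDiff ℝ 1 g → (∀ x v, |crl G g b v x| ≤ k x * ‖v‖) →
      (∫ s in (-T)..T, |crl G g b v (ι w + s • b)|) ≤ (∫ s in (-T)..T, k (ι w + s • b)) * ‖v‖ := by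
    intro g hg hb
    rw [← intervalIntegral.integral_mul_const]
    have hc : Continuous fun s : ℝ => |crl G g b v (ι w + s • b)| :=
      ((continuous_crl D.cG hg b v).comp (by fun_prop)).abs
    apply intervalIntegral.integral_mono_on hTT (hc.intervalIntegrable _ _)
      ((ck.mul continuous_const).intervalIntegrable _ _)
    intro s _
    exact hb _ _
  have b4 := cr f D.cf D.kf
  have b5 := cr h D.ch D.kh
  have n1 : 0 ≤ mf (ι w + T • b) * ‖v‖ := mul_nonneg (D.mf0 _) (norm_nonneg _)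
  nlinarith [b1, b2, b3, b4, b5, n1]

lemma Dat.mass_diff (D : Dat G f h mf mh k b) (hT : 0 ≤ T) (z z' : Fin d → ℝ) :
    |massP T G f ι b z - massP T G f ι b z'|
      ≤ ‖ι (z - z')‖ * segM (KK T mf mh k ι b) z z' := by
  have P := pair_amb D.cG D.cf D.ch (ι z') (ι (z - z')) b D.f0 D.h0
  have h1 := P.prim_diff (T := T) hT
  simp only [pt_eq] at h1
  have e1 : z' + (1:ℝ) • (z - z') = z := by simp
  have e0 : z' + (0:ℝ) • (z - z') = z' := by simp
  rw [e1, e0] at h1
  refine h1.trans ?_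
  unfold segM
  rw [← intervalIntegral.integral_const_mul ‖ι (z - z')‖]
  have hKc : Continuous fun l : ℝ => ‖ι (z - z')‖ * KK T mf mh k ι b (z' + l • (z - z')) := by
    have := D.continuous_KK (T := T) (ι := ι)
    fun_prop
  have cc := continuous_crl D.cG D.cf b (ι (z - z'))
  have cd := continuous_den D.cG D.cf (ι (z - z'))
  have c4 : Continuous fun l : ℝ => ∫ s in (-T)..T,
      |crl G f b (ι (z - z')) (ι (z' + l • (z - z')) + s • b)| :=
    intervalIntegral.continuous_parametric_intervalIntegral_of_continuous'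
      (f := fun (l s : ℝ) => |crl G f b (ι (z - z')) (ι (z' + l • (z - z')) + s • b)|)
      (by fun_prop) _ _
  have hk : Continuous fun l : ℝ => |den G f (ι (z - z')) (ι (z' + l • (z - z')) + T • b)|
      + |den G f (ι (z - z')) (ι (z' + l • (z - z')) + (-T) • b)|
      + ∫ s in (-T)..T, |crl G f b (ι (z - z')) (ι (z' + l • (z - z')) + s • b)| := by
    fun_prop
  apply intervalIntegral.integral_mono_on (by norm_num) (hk.intervalIntegrable _ _)
    (hKc.intervalIntegrable _ _)
  intro l _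
  unfold KK
  set w := z' + l • (z - z') with hw
  set v := ι (z - z') with hv
  have hTT : -T ≤ T := by linarith
  have b1 : |den G f v (ι w + T • b)| ≤ mf (ι w + T • b) * ‖v‖ := D.bf _ _
  have b2 : |den G f v (ι w + (-T) • b)| ≤ mf (ι w + (-T) • b) * ‖v‖ := D.bf _ _
  have ck : Continuous fun t : ℝ => k (ι w + t • b) := by
    have := D.ck
    fun_prop
  have b4 : (∫ s in (-T)..T, |crl G f b v (ι w + s • b)|)
      ≤ (∫ s in (-T)..T, k (ι w + s • b)) * ‖v‖ := by
    rw [← intervalIntegral.integral_mul_const]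
    have hc : Continuous fun s : ℝ => |crl G f b v (ι w + s • b)| := by fun_prop
    apply intervalIntegral.integral_mono_on hTT (hc.intervalIntegrable _ _)
      ((ck.mul continuous_const).intervalIntegrable _ _)
    intro s _
    exact D.kf _ _
  have n1 : 0 ≤ mh (ι w + T • b) * ‖v‖ := mul_nonneg (D.mh0 _) (norm_nonneg _)
  have n2 : 0 ≤ mh (ι w + (-T) • b) * ‖v‖ := mul_nonneg (D.mh0 _) (norm_nonneg _)
  have n3 : 0 ≤ (∫ s in (-T)..T, k (ι w + s • b)) * ‖v‖ :=
    mul_nonneg (intervalIntegral.integral_nonneg hTT fun t _ => D.k0 _) (norm_nonneg _)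
  nlinarith [b1, b2, b4, n1, n2, n3]

end Avg

end Vale.Agent.P134.H355
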