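import Vale.Agent.P134.H355.Pair

/-!
# P134, block M4-B1/B2: the cap pair inequality
-/

open MeasureTheory Set Metric

namespace Vale.Agent.P134.H355

section CapPair

variable {m : ℕ} {G μ : EE (m + 1) → ℝ} {ν : EE (m + 1) → EE (m + 1)}

/-- the unit cube -/
def Zc (m : ℕ) : Set (Fin (m + 1) → ℝ) := Icc (fun _ => -1) (fun _ => 1)

lemma isCompact_Zc : IsCompact (Zc m) := isCompact_Icc
lemma isCompact_Zpl : IsCompact (Zpl m) := isCompact_Icc
lemma isCompact_Zmi : IsCompact (Zmi m) := isCompact_Icc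

/-- data of a pair of caps in a frame -/
structure PD (F : Fld G μ ν) (σ r C T0 c s : ℝ) (w₁ w₂ : EE (m + 1))
    (B : OrthonormalBasis (Fin (m + 2)) ℝ (EE (m + 1))) : Prop where
  hσ : 0 < σ
  hσ1 : σ ≤ 1
  hr : 0 < r
  hrσ : r ≤ σ / 2
  hT0 : T0 = 2 / σ
  hC : C = 2 * T0 + (m + 1)
  hrC : r * C ≤ σ / 4
  hw₁ : ‖w₁‖ = 1
  hw₂ : ‖w₂‖ = 1
  hc : σ ≤ c
  hs : σ ≤ s
  hs1 : s ≤ 1
  i1 : ∀ (z : Fin (m + 1) → ℝ) (t : ℝ), inner ℝ (iot B z + t • B 0) w₁ = c * t + s * z 0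
  i2 : ∀ (z : Fin (m + 1) → ℝ) (t : ℝ), inner ℝ (iot B z + t • B 0) w₂ = c * t - s * z 0

variable {F : Fld G μ ν} {σ r C T0 c s : ℝ} {w₁ w₂ : EE (m + 1)}
  {B : OrthonormalBasis (Fin (m + 2)) ℝ (EE (m + 1))}

lemma PD.T0pos (P : PD F σ r C T0 c s w₁ w₂ B) : 0 < T0 := by
  rw [P.hT0]
  have := P.hσ
  positivity

lemma PD.T02 (P : PD F σ r C T0 c s w₁ w₂ B) : 2 ≤ T0 := by
  rw [P.hT0, le_div_iff₀ P.hσ]
  linarith [P.hσ1]

lemma PD.hcT (P : PD F σ r C T0 c s w₁ w₂ B) {t : ℝ} (ht : T0 ≤ t) : 2 ≤ c * t := by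
  have h1 : σ * T0 = 2 := by
    rw [P.hT0]
    have := P.hσ
    field_simp
  have : σ * T0 ≤ c * t := mul_le_mul P.hc ht P.T0pos.le (P.hσ.le.trans P.hc)
  linarith

lemma PD.c0 (P : PD F σ r C T0 c s w₁ w₂ B) {t : ℝ} (ht : 0 ≤ t) : 0 ≤ c * t :=
  mul_nonneg (P.hσ.le.trans P.hc) ht

lemma PD.hball (P : PD F σ r C T0 c s w₁ w₂ B) {z : Fin (m + 1) → ℝ} (hz : z ∈ Zc m) {t : ℝ}
    (ht : |t| ≤ 2 * T0) : iot B z + t • B 0 ∈ closedBall (0 : EE (m + 1)) C := by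
  rw [mem_closedBall, dist_zero_right]
  have := norm_pt_le B (t := t) (abs_of_mem hz)
  push_cast at this
  rw [P.hC]
  linarith

lemma PD.hz0 (P : PD F σ r C T0 c s w₁ w₂ B) {z : Fin (m + 1) → ℝ} (hz : z ∈ Zc m) :
    |s * z 0| ≤ 1 := by
  rw [abs_mul, abs_of_nonneg (P.hσ.le.trans P.hs)]
  have := abs_of_mem hz 0
  calc s * |z 0| ≤ 1 * 1 := mul_le_mul P.hs1 this (abs_nonneg _) (by norm_num)
    _ = 1 := by norm_num

/-- the `L²` quantity -/
noncomputable def QQ (_F : Fld G μ ν) (σ C : ℝ) : ℝ :=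
  16 / σ ^ 2 * ∫ x in closedBall (0 : EE (m + 1)) C, μ x * inner ℝ x (ν x) ^ 2

/-- the curvature quantity -/
noncomputable def IC (_F : Fld G μ ν) (C : ℝ) : ℝ :=
  ∫ x in closedBall (0 : EE (m + 1)) C, μ x * ‖fderiv ℝ ν x‖

lemma PD.face_bound (P : PD F σ r C T0 c s w₁ w₂ B) {w : EE (m + 1)} (hw : ‖w‖ = 1) {a b : ℝ}
    (hab : a ≤ b) (h1 : ∀ t ∈ Icc a b, |t| ≤ 2 * T0)
    (h2 : ∀ z ∈ Zc m, ∀ t ∈ Icc a b, σ / 2 ≤ |inner ℝ (iot B z + t • B 0) w|) :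
    ∫ t in a..b, face (fun x => cpx r ν w x * μ x) B t ≤ QQ F σ C := by
  have cmf : Continuous fun x : EE (m + 1) => cpx r ν w x * μ x :=
    (F.contDiff_cpx r w).continuous.mul F.cμ
  rw [integral_face cmf B hab]
  exact lint_bound F P.hr P.hσ P.hrC hw B isCompact_Icc hab
    (fun z hz t ht => P.hball hz (h1 t ht)) h2

/-- total face integral -/
noncomputable def Fc (_F : Fld G μ ν) (r : ℝ) (w₁ w₂ : EE (m + 1))
    (B : OrthonormalBasis (Fin (m + 2)) ℝ (EE (m + 1))) (t : ℝ) : ℝ :=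
  face (fun x => cpx r ν w₁ x * μ x) B t + face (fun x => cpx r ν w₁ x * μ x) B (-t)
      + face (fun x => cpx r ν w₂ x * μ x) B t + face (fun x => cpx r ν w₂ x * μ x) B (-t)

lemma PD.face_T (P : PD F σ r C T0 c s w₁ w₂ B) :
    ∃ T, T0 ≤ T ∧ T ≤ 2 * T0 ∧ Fc F r w₁ w₂ B T ≤ σ / 2 * (4 * QQ F σ C) := by
  have cmf : Continuous fun x : EE (m + 1) => cpx r ν w₁ x * μ x :=
    (F.contDiff_cpx r w₁).continuous.mul F.cμ
  have cmh : Continuous fun x : EE (m + 1) => cpx r ν w₂ x * μ x :=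
    (F.contDiff_cpx r w₂).continuous.mul F.cμ
  have cF1 := continuous_face cmf B
  have cF2 := continuous_face cmh B
  have cFc : Continuous (Fc F r w₁ w₂ B) := by unfold Fc; fun_prop
  have hT0pos := P.T0pos
  have hσ := P.hσ
  obtain ⟨T, ⟨hT1, hT2⟩, hTF⟩ := exists_mul_le_integral cFc (show T0 ≤ 2 * T0 by linarith)
  have habs1 : ∀ t ∈ Icc T0 (2 * T0), |t| ≤ 2 * T0 := by
    intro t ht
    rw [abs_of_nonneg (hT0pos.le.trans ht.1)]; exact ht.2
  have habs2 : ∀ t ∈ Icc (-(2 * T0)) (-T0), |t| ≤ 2 * T0 := by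
    intro t ht
    rw [abs_of_nonpos (by linarith [ht.2])]; linarith [ht.1]
  have hσ1 := P.hσ1
  have hI1 : ∫ t in T0..(2 * T0), face (fun x => cpx r ν w₁ x * μ x) B t ≤ QQ F σ C := by
    refine P.face_bound P.hw₁ (by linarith) habs1 ?_
    intro z hz t ht
    rw [P.i1]
    have h1 := P.hcT ht.1
    have h2 := abs_le.mp (P.hz0 hz)
    rw [le_abs]; left; linarith [h2.1]
  have hI2 : ∫ t in (-(2 * T0))..(-T0), face (fun x => cpx r ν w₁ x * μ x) B t ≤ QQ F σ C := by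
    refine P.face_bound P.hw₁ (by linarith) habs2 ?_
    intro z hz t ht
    rw [P.i1]
    have h1 := P.hcT (t := -t) (by linarith [ht.2])
    have h2 := abs_le.mp (P.hz0 hz)
    rw [le_abs]; right; linarith [h2.2]
  have hI3 : ∫ t in T0..(2 * T0), face (fun x => cpx r ν w₂ x * μ x) B t ≤ QQ F σ C := by
    refine P.face_bound P.hw₂ (by linarith) habs1 ?_
    intro z hz t ht
    rw [P.i2]
    have h1 := P.hcT ht.1
    have h2 := abs_le.mp (P.hz0 hz)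
    rw [le_abs]; left; linarith [h2.2]
  have hI4 : ∫ t in (-(2 * T0))..(-T0), face (fun x => cpx r ν w₂ x * μ x) B t ≤ QQ F σ C := by
    refine P.face_bound P.hw₂ (by linarith) habs2 ?_
    intro z hz t ht
    rw [P.i2]
    have h1 := P.hcT (t := -t) (by linarith [ht.2])
    have h2 := abs_le.mp (P.hz0 hz)
    rw [le_abs]; right; linarith [h2.1]
  have hIF : ∫ t in T0..(2 * T0), Fc F r w₁ w₂ B t ≤ 4 * QQ F σ C := by
    have a1 : IntervalIntegrable (fun t => face (fun x => cpx r ν w₁ x * μ x) B t) volume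
      T0 (2 * T0) := cF1.intervalIntegrable _ _
    have a2 : IntervalIntegrable (fun t => face (fun x => cpx r ν w₁ x * μ x) B (-t)) volume
      T0 (2 * T0) := (cF1.comp continuous_neg).intervalIntegrable _ _
    have a3 : IntervalIntegrable (fun t => face (fun x => cpx r ν w₂ x * μ x) B t) volume
      T0 (2 * T0) := cF2.intervalIntegrable _ _
    have a4 : IntervalIntegrable (fun t => face (fun x => cpx r ν w₂ x * μ x) B (-t)) volume
      T0 (2 * T0) := (cF2.comp continuous_neg).intervalIntegrable _ _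
    unfold Fc
    rw [intervalIntegral.integral_add ((a1.add a2).add a3) a4,
      intervalIntegral.integral_add (a1.add a2) a3, intervalIntegral.integral_add a1 a2,
      intervalIntegral.integral_comp_neg (fun t => face (fun x => cpx r ν w₁ x * μ x) B t),
      intervalIntegral.integral_comp_neg (fun t => face (fun x => cpx r ν w₂ x * μ x) B t)]
    linarith
  refine ⟨T, hT1, hT2, ?_⟩
  have h1 : T0 * Fc F r w₁ w₂ B T ≤ 4 * QQ F σ C := by
    have : (2 * T0 - T0) * Fc F r w₁ w₂ B T ≤ 4 * QQ F σ C := hTF.trans hIF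
    linarith
  have h2 : σ / 2 * (T0 * Fc F r w₁ w₂ B T) ≤ σ / 2 * (4 * QQ F σ C) :=
    mul_le_mul_of_nonneg_left h1 (by positivity)
  have h3 : σ / 2 * (T0 * Fc F r w₁ w₂ B T) = Fc F r w₁ w₂ B T := by
    rw [← mul_assoc]
    have : σ / 2 * T0 = 1 := by
      rw [P.hT0]; field_simp
    rw [this, one_mul]
  linarith

lemma PD.lint_key (P : PD F σ r C T0 c s w₁ w₂ B) {T : ℝ} (hT2 : T ≤ 2 * T0)
    {w : EE (m + 1)} (hw : ‖w‖ = 1) {Z' : Set (Fin (m + 1) → ℝ)} (hZ' : IsCompact Z')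
    (hsub : Z' ⊆ Zc m) {a b : ℝ} (ha : -T ≤ a) (hab : a ≤ b) (hb : b ≤ T)
    (hlow : ∀ z ∈ Z', ∀ t ∈ Icc a b, σ / 2 ≤ |inner ℝ (iot B z + t • B 0) w|) :
    ∫ z in Z', lint G (cpx r ν w) (iot B) (B 0) a b z ≤ QQ F σ C := by
  refine (lint_le F B hZ' hab).trans ?_
  refine lint_bound F P.hr P.hσ P.hrC hw B hZ' hab ?_ hlow
  intro z hz t ht
  apply P.hball (hsub hz)
  exact abs_le.mpr ⟨by linarith [ht.1], by linarith [ht.2]⟩

lemma PD.hZp (P : PD F σ r C T0 c s w₁ w₂ B) {z : Fin (m + 1) → ℝ} (hz : z ∈ Zpl m) :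
    σ / 2 ≤ s * z 0 := by
  have h1 : (1:ℝ) / 2 ≤ z 0 := by simpa using hz.1 0
  have := P.hs
  have := P.hσ
  nlinarith

lemma PD.hZm (P : PD F σ r C T0 c s w₁ w₂ B) {z : Fin (m + 1) → ℝ} (hz : z ∈ Zmi m) :
    s * z 0 ≤ -(σ / 2) := by
  have h1 : z 0 ≤ -(1 / 2) := by
    have := hz.2 0
    simp only [if_true] at this
    linarith
  have := P.hs
  have := P.hσ
  nlinarith

lemma lint_integrable (F : Fld G μ ν) (r : ℝ) (w : EE (m + 1))
    (B : OrthonormalBasis (Fin (m + 2)) ℝ (EE (m + 1))) (a b : ℝ)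
    {Z' : Set (Fin (m + 1) → ℝ)} (hZ' : IsCompact Z') :
    IntegrableOn (fun z => lint G (cpx r ν w) (iot B) (B 0) a b z) Z' :=
  (continuous_lint F.cG (F.contDiff_cpx r w) a b).continuousOn.integrableOn_compact hZ'

lemma PD.hSp (P : PD F σ r C T0 c s w₁ w₂ B) {T : ℝ} (hT0 : 0 ≤ T) (hT2 : T ≤ 2 * T0) :
    ∫ z in Zpl m, Sp T G (cpx r ν w₁) (cpx r ν w₂) (iot B) (B 0) z ≤ 2 * QQ F σ C := by
  unfold Sp
  rw [integral_add (lint_integrable F r w₁ B _ _ isCompact_Zpl)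
    (lint_integrable F r w₂ B _ _ isCompact_Zpl)]
  have q1 := P.lint_key hT2 P.hw₁ isCompact_Zpl Zpl_sub (a := 0) (b := T) (by linarith) hT0 le_rfl
    (by
      intro z hz t ht
      rw [P.i1, le_abs]; left
      linarith [P.hZp hz, P.c0 ht.1])
  have q2 := P.lint_key hT2 P.hw₂ isCompact_Zpl Zpl_sub (a := -T) (b := 0) le_rfl (by linarith) hT0
    (by
      intro z hz t ht
      rw [P.i2, le_abs]; right
      linarith [P.hZp hz, P.c0 (t := -t) (by linarith [ht.2])])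
  linarith

lemma PD.hSm (P : PD F σ r C T0 c s w₁ w₂ B) {T : ℝ} (hT0 : 0 ≤ T) (hT2 : T ≤ 2 * T0) :
    ∫ z in Zmi m, Sm T G (cpx r ν w₁) (cpx r ν w₂) (iot B) (B 0) z ≤ 2 * QQ F σ C := by
  unfold Sm
  rw [integral_add (lint_integrable F r w₁ B _ _ isCompact_Zmi)
    (lint_integrable F r w₂ B _ _ isCompact_Zmi)]
  have q1 := P.lint_key hT2 P.hw₁ isCompact_Zmi Zmi_sub (a := -T) (b := 0) le_rfl (by linarith) hT0
    (by
      intro z hz t ht
      rw [P.i1, le_abs]; right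
      linarith [P.hZm hz, P.c0 (t := -t) (by linarith [ht.2])])
  have q2 := P.lint_key hT2 P.hw₂ isCompact_Zmi Zmi_sub (a := 0) (b := T) (by linarith) hT0 le_rfl
    (by
      intro z hz t ht
      rw [P.i2, le_abs]; left
      linarith [P.hZm hz, P.c0 ht.1])
  linarith

lemma PD.hKK (P : PD F σ r C T0 c s w₁ w₂ B) {T L : ℝ} (hL0 : 0 ≤ L) (hT0 : 0 ≤ T)
    (hT2 : T ≤ 2 * T0)
    (hFT : Fc F r w₁ w₂ B T ≤ σ / 2 * (4 * QQ F σ C)) :
    ∫ z in Zc m, KK T (fun x => cpx r ν w₁ x * μ x) (fun x => cpx r ν w₂ x * μ x)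
      (fun x => 2 * L * (μ x * ‖fderiv ℝ ν x‖)) (iot B) (B 0) z
      ≤ σ / 2 * (4 * QQ F σ C) + 2 * (2 * L * IC F C) := by
  have cmf : Continuous fun x : EE (m + 1) => cpx r ν w₁ x * μ x :=
    (F.contDiff_cpx r w₁).continuous.mul F.cμ
  have cmh : Continuous fun x : EE (m + 1) => cpx r ν w₂ x * μ x :=
    (F.contDiff_cpx r w₂).continuous.mul F.cμ
  have cD : Continuous fun x => ‖fderiv ℝ ν x‖ := (F.cν.continuous_fderiv (by norm_num)).norm
  have cμ := F.cμ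
  have ck : Continuous fun x => 2 * L * (μ x * ‖fderiv ℝ ν x‖) := by fun_prop
  have hint : ∀ (g : EE (m + 1) → ℝ) (t : ℝ), Continuous g →
      IntegrableOn (fun z : Fin (m + 1) → ℝ => g (iot B z + t • B 0)) (Zc m) := fun g t hg =>
    (hg.comp (by fun_prop)).continuousOn.integrableOn_compact isCompact_Zc
  have hcc : Continuous (fun z : Fin (m + 1) → ℝ => 2 * ∫ t in (-T)..T,
      (fun x => 2 * L * (μ x * ‖fderiv ℝ ν x‖)) (iot B z + t • B 0)) := by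
    apply continuous_const.mul
    exact intervalIntegral.continuous_parametric_intervalIntegral_of_continuous'
      (f := fun (z : Fin (m + 1) → ℝ) (t : ℝ) =>
        (fun x => 2 * L * (μ x * ‖fderiv ℝ ν x‖)) (iot B z + t • B 0))
      (ck.comp (by fun_prop : Continuous fun p : (Fin (m + 1) → ℝ) × ℝ => iot B p.1 + p.2 • B 0))
      _ _
  have hint2 := hcc.continuousOn.integrableOn_compact (isCompact_Zc (m := m))
    (μ := volume)
  unfold KK
  have j1 := hint _ T cmf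
  have j2 := hint _ (-T) cmf
  have j3 := hint _ T cmh
  have j4 := hint _ (-T) cmh
  have hsum := integral_add (((j1.add j2).add j3).add j4) hint2
  have hsum2 := integral_add ((j1.add j2).add j3) j4
  have hsum3 := integral_add (j1.add j2) j3
  have hsum4 := integral_add j1 j2
  simp only [Pi.add_apply] at hsum hsum2 hsum3 hsum4
  have hle := cov_le B ck (fun x => mul_nonneg (by positivity)
    (mul_nonneg (F.μ0 x) (norm_nonneg _))) (isCompact_Zc (m := m)) (show -T ≤ T by linarith)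
    (isCompact_closedBall (0 : EE (m + 1)) C) (by
      intro z hz t ht
      exact P.hball hz (abs_le.mpr ⟨by linarith [ht.1], by linarith [ht.2]⟩))
  rw [integral_const_mul] at hle
  have hfc : Fc F r w₁ w₂ B T = (∫ z in Zc m, cpx r ν w₁ (iot B z + T • B 0) * μ (iot B z + T • B 0))
    + (∫ z in Zc m, cpx r ν w₁ (iot B z + (-T) • B 0) * μ (iot B z + (-T) • B 0))
    + (∫ z in Zc m, cpx r ν w₂ (iot B z + T • B 0) * μ (iot B z + T • B 0))
    + (∫ z in Zc m, cpx r ν w₂ (iot B z + (-T) • B 0) * μ (iot B z + (-T) • B 0)) := rfl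
  rw [integral_const_mul] at hsum
  have hic : IC F C = ∫ x in closedBall (0 : EE (m + 1)) C, μ x * ‖fderiv ℝ ν x‖ := rfl
  rw [← hic] at hle
  linarith [hsum, hsum2, hsum3, hsum4, hle, hfc, hFT]

lemma QQ_nonneg (F : Fld G μ ν) (σ C : ℝ) : 0 ≤ QQ F σ C := by
  unfold QQ
  apply mul_nonneg (by positivity)
  exact integral_nonneg fun x => mul_nonneg (F.μ0 x) (sq_nonneg _)

lemma IC_nonneg (F : Fld G μ ν) (C : ℝ) : 0 ≤ IC F C := by
  unfold IC
  exact integral_nonneg fun x => mul_nonneg (F.μ0 x) (norm_nonneg _)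

/-- mass of the cap in the unit ball -/
noncomputable def cmass (_F : Fld G μ ν) (r : ℝ) (w : EE (m + 1)) : ℝ :=
  ∫ x in closedBall (0 : EE (m + 1)) 1, cpx r ν w x * μ x

lemma cmass_nonneg (F : Fld G μ ν) (r : ℝ) (w : EE (m + 1)) : 0 ≤ cmass F r w :=
  integral_nonneg fun x => mul_nonneg (cpx_nonneg _ _ _ _) (F.μ0 x)

theorem PD.ineq (P : PD F σ r C T0 c s w₁ w₂ B) {L : ℝ} (hL0 : 0 ≤ L)
    (hL : ∀ s, |deriv (capf r) s| ≤ L) :
    (2 ^ m / 2) * (2 ^ m / 2) *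
      (Real.arctan ((2 ^ (m + 1))⁻¹ * (σ / 2 * cmass F r w₁))
        * Real.arctan ((2 ^ (m + 1))⁻¹ * (σ / 2 * cmass F r w₂)))
      ≤ 2 * (2 ^ m / 2) * (2 * QQ F σ C) + 2 * (2 ^ m / 2) * (2 * QQ F σ C)
        + 8 * (((m + 1 : ℕ) : ℝ) * 2) * 2 ^ (m + 1) * 2 ^ (m + 1) *
          (σ / 2 * (4 * QQ F σ C) + 2 * (2 * L * IC F C)) := by
  obtain ⟨T, hT1, hT2, hFT⟩ := P.face_T
  have hT02 := P.T02
  have hTpos : 0 ≤ T := by linarith
  have b1 : inner ℝ w₁ (B 0) = c := by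
    have := P.i1 0 1
    simp only [map_zero, zero_add, one_smul, Pi.zero_apply, mul_zero, add_zero, mul_one] at this
    rw [real_inner_comm]; exact this
  have b2 : inner ℝ w₂ (B 0) = c := by
    have := P.i2 0 1
    simp only [map_zero, zero_add, one_smul, Pi.zero_apply, mul_zero, sub_zero, mul_one] at this
    rw [real_inner_comm]; exact this
  have hc := P.hc
  have hσ := P.hσ
  have hrσ := P.hrσ
  have D := F.dat P.hr hL0 hL (b := B 0) (B.orthonormal.1 0) P.hw₁ P.hw₂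
    (by rw [b1]; linarith) (by rw [b2]; linarith)
  have hLc : ∀ z ∈ Zc m, ∀ z' ∈ Zc m, ‖iot B (z - z')‖ ≤ ((m + 1 : ℕ) : ℝ) * 2 := by
    intro z hz z' hz'
    apply norm_iot_le
    intro j
    have h1 := abs_le.mp (abs_of_mem hz j)
    have h2 := abs_le.mp (abs_of_mem hz' j)
    rw [abs_le, Pi.sub_apply]
    constructor <;> linarith [h1.1, h1.2, h2.1, h2.2]
  have hvZ : (volume (Zc m)).toReal = 2 ^ (m + 1) := volume_cube
  have main := D.averaged (ι := iot B) (T := T) (Z := Zc m) (Zp := Zpl m) (Zm := Zmi m)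
    (Lc := ((m + 1 : ℕ) : ℝ) * 2) hTpos (convex_Icc _ _) isCompact_Zc isCompact_Zpl isCompact_Zmi
    Zpl_sub Zmi_sub (by rw [hvZ]; positivity) (by positivity) hLc
  rw [hvZ, volume_Zpl, volume_Zmi] at main
  have g1 := avg_ge F P.hr hσ hrσ P.hw₁ B (by rw [b1]; exact hc) (T := T) (by linarith)
  have g2 := avg_ge F P.hr hσ hrσ P.hw₂ B (by rw [b2]; exact hc) (T := T) (by linarith)
  rw [volume_cube] at g1 g2
  have n1 := cmass_nonneg F r w₁
  have n2 := cmass_nonneg F r w₂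
  have a1 := Real.arctan_strictMono.monotone g1
  have a2 := Real.arctan_strictMono.monotone g2
  have a3 : 0 ≤ Real.arctan ((2 ^ (m + 1))⁻¹ * (σ / 2 * cmass F r w₂)) :=
    Real.arctan_nonneg.mpr (by positivity)
  have a4 : 0 ≤ Real.arctan ((2 ^ (m + 1))⁻¹ * (σ / 2 * cmass F r w₁)) :=
    Real.arctan_nonneg.mpr (by positivity)
  have a5 := mul_le_mul a1 a2 a3 (a4.trans a1)
  have a6 : (0:ℝ) ≤ 2 ^ m / 2 * (2 ^ m / 2) := by positivity
  refine (mul_le_mul_of_nonneg_left a5 a6).trans (main.trans ?_)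
  have p1 : (0:ℝ) ≤ 2 * (2 ^ m / 2) := by positivity
  have p2 : (0:ℝ) ≤ 8 * (((m + 1 : ℕ) : ℝ) * 2) * 2 ^ (m + 1) * 2 ^ (m + 1) := by positivity
  exact add_le_add (add_le_add (mul_le_mul_of_nonneg_left (P.hSp hTpos hT2) p1)
    (mul_le_mul_of_nonneg_left (P.hSm hTpos hT2) p1))
    (mul_le_mul_of_nonneg_left (P.hKK hL0 hTpos hT2 hFT) p2)

/-- **Two nonparallel caps cannot both carry mass.** -/
theorem cap_pair (m : ℕ) {σ : ℝ} (hσ : 0 < σ) (hσ1 : σ ≤ 1) :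
    ∃ r C : ℝ, 0 < r ∧ r ≤ σ / 2 ∧ 1 ≤ C ∧ ∀ θ : ℝ, 0 < θ → ∃ ε : ℝ, 0 < ε ∧
      ∀ {G μ : EE (m + 1) → ℝ} {ν : EE (m + 1) → EE (m + 1)} (F : Fld G μ ν)
        (w₁ w₂ : EE (m + 1)), ‖w₁‖ = 1 → ‖w₂‖ = 1 → |inner ℝ w₁ w₂| ≤ 1 - 2 * σ ^ 2 →
        ∫ x in closedBall (0 : EE (m + 1)) C, μ x * ‖fderiv ℝ ν x‖ ≤ ε →
        ∫ x in closedBall (0 : EE (m + 1)) C, μ x * inner ℝ x (ν x) ^ 2 ≤ ε →
        cmass F r w₁ ≤ θ ∨ cmass F r w₂ ≤ θ := by
  set T0 : ℝ := 2 / σ with hT0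
  set C : ℝ := 2 * T0 + (m + 1) with hC
  have hT0pos : 0 < T0 := by positivity
  have hC1 : 1 ≤ C := by
    have : (0:ℝ) ≤ m := Nat.cast_nonneg m
    rw [hC]; linarith
  have hCpos : 0 < C := by linarith
  refine ⟨σ / (4 * C), C, by positivity, ?_, hC1, ?_⟩
  · rw [div_le_div_iff₀ (by positivity) (by norm_num)]
    nlinarith
  intro θ hθ
  set r : ℝ := σ / (4 * C) with hr
  have hrpos : 0 < r := by positivity
  have hrC : r * C ≤ σ / 4 := by
    apply le_of_eq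
    rw [hr]; field_simp
  have hrσ : r ≤ σ / 2 := by
    rw [hr, div_le_div_iff₀ (by positivity) (by norm_num)]
    nlinarith
  obtain ⟨L, hL0, hL⟩ := capf_deriv_bound r
  set a : ℝ := Real.arctan ((2 ^ (m + 1))⁻¹ * (σ / 2 * θ)) with ha
  have ha0 : 0 < a := Real.arctan_pos.mpr (by positivity)
  set A : ℝ := (2 ^ m / 2) * (2 ^ m / 2) * (a * a) with hA
  have hA0 : 0 < A := by positivity
  set K1 : ℝ := 2 * (2 ^ m / 2) * (2 * (16 / σ ^ 2)) + 2 * (2 ^ m / 2) * (2 * (16 / σ ^ 2))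
        + 8 * (((m + 1 : ℕ) : ℝ) * 2) * 2 ^ (m + 1) * 2 ^ (m + 1) *
          (σ / 2 * (4 * (16 / σ ^ 2)) + 2 * (2 * L)) with hK1
  have hK0 : 0 ≤ K1 := by positivity
  refine ⟨A / (K1 + 1), by positivity, ?_⟩
  intro G μ ν F w₁ w₂ h1 h2 h12 hI hE
  by_contra hcon
  rw [not_or, not_le, not_le] at hcon
  obtain ⟨B, c, s, hc, hs, hc1, hs1, e1, e2⟩ := exists_frame h1 h2 hσ h12
  have e2' : w₂ = c • B 0 + (-s) • B (Fin.succ 0) := by rw [e2]; module
  have P : PD F σ r C T0 c s w₁ w₂ B := by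
    refine ⟨hσ, hσ1, hrpos, hrσ, hT0, hC, hrC, h1, h2, hc, hs, hs1, ?_, ?_⟩
    · exact fun z t => inner_frame e1 z t
    · intro z t
      rw [inner_frame e2' z t]; ring
  have main := P.ineq hL0 hL
  have m1 : a ≤ Real.arctan ((2 ^ (m + 1))⁻¹ * (σ / 2 * cmass F r w₁)) := by
    apply Real.arctan_strictMono.monotone
    have := hcon.1.le
    gcongr
  have m2 : a ≤ Real.arctan ((2 ^ (m + 1))⁻¹ * (σ / 2 * cmass F r w₂)) := by
    apply Real.arctan_strictMono.monotone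
    have := hcon.2.le
    gcongr
  have m3 : A ≤ (2 ^ m / 2) * (2 ^ m / 2) *
      (Real.arctan ((2 ^ (m + 1))⁻¹ * (σ / 2 * cmass F r w₁))
        * Real.arctan ((2 ^ (m + 1))⁻¹ * (σ / 2 * cmass F r w₂))) := by
    rw [hA]
    exact mul_le_mul_of_nonneg_left (mul_le_mul m1 m2 ha0.le (ha0.le.trans m1)) (by positivity)
  set ε : ℝ := A / (K1 + 1) with hε
  have hε0 : 0 < ε := by positivity
  have hQ : QQ F σ C ≤ 16 / σ ^ 2 * ε := mul_le_mul_of_nonneg_left hE (by positivity)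
  have hIC : IC F C ≤ ε := hI
  have q1 : 2 * (2 ^ m / 2) * (2 * QQ F σ C) ≤ 2 * (2 ^ m / 2) * (2 * (16 / σ ^ 2)) * ε := by
    calc 2 * (2 ^ m / 2) * (2 * QQ F σ C) ≤ 2 * (2 ^ m / 2) * (2 * (16 / σ ^ 2 * ε)) := by gcongr
      _ = _ := by ring
  have q2 : 8 * (((m + 1 : ℕ) : ℝ) * 2) * 2 ^ (m + 1) * 2 ^ (m + 1) *
          (σ / 2 * (4 * QQ F σ C) + 2 * (2 * L * IC F C))
      ≤ 8 * (((m + 1 : ℕ) : ℝ) * 2) * 2 ^ (m + 1) * 2 ^ (m + 1) *
          (σ / 2 * (4 * (16 / σ ^ 2)) + 2 * (2 * L)) * ε := by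
    calc _ ≤ 8 * (((m + 1 : ℕ) : ℝ) * 2) * 2 ^ (m + 1) * 2 ^ (m + 1) *
          (σ / 2 * (4 * (16 / σ ^ 2 * ε)) + 2 * (2 * L * ε)) := by gcongr
      _ = _ := by ring
  have q3 : A ≤ K1 * ε := by
    calc A ≤ _ := m3
      _ ≤ _ := main
      _ ≤ _ := add_le_add (add_le_add q1 q1) q2
      _ = K1 * ε := by rw [hK1]; ring
  have q4 : (K1 + 1) * ε = A := by rw [hε]; field_simp
  linarith

end CapPair

end Vale.Agent.P134.H355
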