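import Vale.Agent.P134.H355.Cov

/-!
# P134, block M4-B1/B2: caps on the sphere
-/

open MeasureTheory Set

namespace Vale.Agent.P134.H355

section Capf

/-- cap profile: `0` for `s ≤ 1 - r²/2`, `1` for `s ≥ 1 - r²/4`. -/
noncomputable def capf (r s : ℝ) : ℝ := Real.smoothTransition ((s - (1 - r ^ 2 / 2)) * (4 / r ^ 2))

lemma capf_contDiff (r : ℝ) : ContDiff ℝ 1 (capf r) := by
  unfold capf
  exact Real.smoothTransition.contDiff.comp (by fun_prop)

lemma capf_nonneg (r s : ℝ) : 0 ≤ capf r s := Real.smoothTransition.nonneg _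

lemma capf_le_one (r s : ℝ) : capf r s ≤ 1 := Real.smoothTransition.le_one _

lemma capf_eq_zero {r s : ℝ} (hs : s ≤ 1 - r ^ 2 / 2) : capf r s = 0 := by
  unfold capf
  apply Real.smoothTransition.zero_of_nonpos
  apply mul_nonpos_of_nonpos_of_nonneg (by linarith) (by positivity)

lemma capf_eq_one {r s : ℝ} (hr : 0 < r) (hs : 1 - r ^ 2 / 4 ≤ s) : capf r s = 1 := by
  unfold capf
  apply Real.smoothTransition.one_of_one_le
  have h1 : r ^ 2 / 4 ≤ s - (1 - r ^ 2 / 2) := by linarith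
  calc (1:ℝ) = r ^ 2 / 4 * (4 / r ^ 2) := by field_simp
    _ ≤ _ := mul_le_mul_of_nonneg_right h1 (by positivity)

lemma smoothTransition_deriv_bound : ∃ C : ℝ, 0 ≤ C ∧ ∀ t, |deriv Real.smoothTransition t| ≤ C := by
  have hc : Continuous (deriv Real.smoothTransition) :=
    (Real.smoothTransition.contDiff (n := 1)).continuous_deriv (by norm_num)
  obtain ⟨C, hC⟩ := (isCompact_Icc (a := (0:ℝ)) (b := 1)).exists_bound_of_continuousOn
    hc.continuousOn
  refine ⟨max C 0, le_max_right _ _, fun t => ?_⟩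
  by_cases h0 : t < 0
  · have : deriv Real.smoothTransition t = 0 := by
      have he : Real.smoothTransition =ᶠ[nhds t] fun _ => 0 := by
        filter_upwards [Iio_mem_nhds h0] with s hs
        exact Real.smoothTransition.zero_of_nonpos (le_of_lt hs)
      rw [he.deriv_eq]; simp
    rw [this, abs_zero]; exact le_max_right _ _
  by_cases h1 : 1 < t
  · have : deriv Real.smoothTransition t = 0 := by
      have he : Real.smoothTransition =ᶠ[nhds t] fun _ => 1 := by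
        filter_upwards [Ioi_mem_nhds h1] with s hs
        exact Real.smoothTransition.one_of_one_le (le_of_lt hs)
      rw [he.deriv_eq]; simp
    rw [this, abs_zero]; exact le_max_right _ _
  · have := hC t ⟨not_lt.mp h0, not_lt.mp h1⟩
    rw [Real.norm_eq_abs] at this
    exact this.trans (le_max_left _ _)

lemma capf_deriv_bound (r : ℝ) : ∃ L : ℝ, 0 ≤ L ∧ ∀ s, |deriv (capf r) s| ≤ L := by
  obtain ⟨C, hC0, hC⟩ := smoothTransition_deriv_bound
  refine ⟨C * (4 / r ^ 2), by positivity, fun s => ?_⟩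
  have h1 : HasDerivAt (fun s : ℝ => (s - (1 - r ^ 2 / 2)) * (4 / r ^ 2)) (4 / r ^ 2) s := by
    simpa using ((hasDerivAt_id s).sub_const (1 - r ^ 2 / 2)).mul_const (4 / r ^ 2)
  have h2 : HasDerivAt Real.smoothTransition
      (deriv Real.smoothTransition ((s - (1 - r ^ 2 / 2)) * (4 / r ^ 2)))
      ((s - (1 - r ^ 2 / 2)) * (4 / r ^ 2)) :=
    (((Real.smoothTransition.contDiff (n := 1)).differentiable (by norm_num)) _).hasDerivAt
  have h3 : HasDerivAt (capf r)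
      (deriv Real.smoothTransition ((s - (1 - r ^ 2 / 2)) * (4 / r ^ 2)) * (4 / r ^ 2)) s :=
    h2.comp s h1
  rw [h3.deriv, abs_mul, abs_of_nonneg (show (0:ℝ) ≤ 4 / r ^ 2 by positivity)]
  exact mul_le_mul_of_nonneg_right (hC _) (by positivity)

end Capf

section Fld

variable {m : ℕ} {G μ : EE (m + 1) → ℝ} {ν : EE (m + 1) → EE (m + 1)}

/-- The data: `∇G = μ ν`, `|ν| = 1`, `μ ≥ 0`. -/
structure Fld (G μ : EE (m + 1) → ℝ) (ν : EE (m + 1) → EE (m + 1)) : Prop where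
  cG : ContDiff ℝ 2 G
  cν : ContDiff ℝ 1 ν
  cμ : Continuous μ
  μ0 : ∀ x, 0 ≤ μ x
  nν : ∀ x, ‖ν x‖ = 1
  grad : ∀ x v, fderiv ℝ G x v = μ x * inner ℝ (ν x) v

/-- cap function of the field. -/
noncomputable def cpx (r : ℝ) (ν : EE (m + 1) → EE (m + 1)) (w x : EE (m + 1)) : ℝ :=
  capf r (inner ℝ (ν x) w)

lemma Fld.contDiff_cpx (F : Fld G μ ν) (r : ℝ) (w : EE (m + 1)) : ContDiff ℝ 1 (cpx r ν w) :=
  (capf_contDiff r).comp (F.cν.inner ℝ contDiff_const)

lemma cpx_nonneg (r : ℝ) (ν : EE (m + 1) → EE (m + 1)) (w x : EE (m + 1)) : 0 ≤ cpx r ν w x :=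
  capf_nonneg _ _

lemma cpx_le_one (r : ℝ) (ν : EE (m + 1) → EE (m + 1)) (w x : EE (m + 1)) : cpx r ν w x ≤ 1 :=
  capf_le_one _ _

lemma Fld.norm_sub_le (F : Fld G μ ν) {r : ℝ} (hr : 0 < r) {w x : EE (m + 1)} (hw : ‖w‖ = 1)
    (h : cpx r ν w x ≠ 0) : ‖ν x - w‖ ≤ r := by
  have h1 : 1 - r ^ 2 / 2 < inner ℝ (ν x) w := by
    by_contra hcon
    exact h (capf_eq_zero (not_lt.mp hcon))
  have h2 : ‖ν x - w‖ ^ 2 = 2 - 2 * inner ℝ (ν x) w := by
    rw [norm_sub_sq_real, F.nν, hw]; ring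
  have h3 : ‖ν x - w‖ ^ 2 ≤ r ^ 2 := by rw [h2]; linarith
  exact (sq_le_sq₀ (norm_nonneg _) hr.le).mp h3

lemma Fld.fderiv_cpx (F : Fld G μ ν) (r : ℝ) (w x v : EE (m + 1)) :
    fderiv ℝ (cpx r ν w) x v
      = deriv (capf r) (inner ℝ (ν x) w) * inner ℝ (fderiv ℝ ν x v) w := by
  have hd : DifferentiableAt ℝ ν x := (F.cν.differentiable (by norm_num)) x
  have h1 : HasFDerivAt (fun y => (inner ℝ (ν y) w : ℝ))
      ((innerSL ℝ w).comp (fderiv ℝ ν x)) x := by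
    have := (innerSL ℝ w).hasFDerivAt.comp x hd.hasFDerivAt
    refine this.congr_of_eventuallyEq ?_
    exact Filter.Eventually.of_forall fun y => by simp [real_inner_comm]
  have h2 : HasDerivAt (capf r) (deriv (capf r) (inner ℝ (ν x) w)) (inner ℝ (ν x) w) :=
    (((capf_contDiff r).differentiable (by norm_num)) _).hasDerivAt
  have h3 := h2.comp_hasFDerivAt x h1
  have : (cpx r ν w) = (capf r) ∘ fun y => (inner ℝ (ν y) w : ℝ) := rfl
  rw [this, h3.fderiv]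
  simp [real_inner_comm]

lemma Fld.dat (F : Fld G μ ν) {r L : ℝ} (hr : 0 < r) (hL0 : 0 ≤ L)
    (hL : ∀ s, |deriv (capf r) s| ≤ L)
    {b w₁ w₂ : EE (m + 1)} (hb : ‖b‖ = 1) (hw₁ : ‖w₁‖ = 1) (hw₂ : ‖w₂‖ = 1)
    (h1 : r ≤ inner ℝ w₁ b) (h2 : r ≤ inner ℝ w₂ b) :
    Dat G (cpx r ν w₁) (cpx r ν w₂) (fun x => cpx r ν w₁ x * μ x) (fun x => cpx r ν w₂ x * μ x)
      (fun x => 2 * L * (μ x * ‖fderiv ℝ ν x‖)) b := by
  have pos : ∀ w : EE (m + 1), ‖w‖ = 1 → r ≤ inner ℝ w b → ∀ x, 0 ≤ den G (cpx r ν w) b x := by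
    intro w hw hwb x
    unfold den
    rw [F.grad]
    by_cases h0 : cpx r ν w x = 0
    · rw [h0, zero_mul]
    · have h3 := F.norm_sub_le hr hw h0
      have h4 : |inner ℝ (ν x - w) b| ≤ ‖ν x - w‖ * ‖b‖ := abs_real_inner_le_norm _ _
      rw [inner_sub_left, hb, mul_one] at h4
      have h5 := (abs_le.mp h4).1
      exact mul_nonneg (cpx_nonneg _ _ _ _) (mul_nonneg (F.μ0 x) (by linarith))
  have bd : ∀ w x v : EE (m + 1), |den G (cpx r ν w) v x| ≤ cpx r ν w x * μ x * ‖v‖ := by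
    intro w x v
    unfold den
    rw [F.grad, abs_mul, abs_mul, abs_of_nonneg (cpx_nonneg _ _ _ _), abs_of_nonneg (F.μ0 x)]
    have := abs_real_inner_le_norm (ν x) v
    rw [F.nν, one_mul] at this
    have h3 := mul_nonneg (cpx_nonneg r ν w x) (F.μ0 x)
    nlinarith [mul_le_mul_of_nonneg_left this h3]
  have cb : ∀ w x v : EE (m + 1), ‖w‖ = 1 →
      |crl G (cpx r ν w) b v x| ≤ 2 * L * (μ x * ‖fderiv ℝ ν x‖) * ‖v‖ := by
    intro w x v hw
    have g : ∀ v, |fderiv ℝ (cpx r ν w) x v| ≤ L * (‖fderiv ℝ ν x‖ * ‖v‖) := by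
      intro v
      rw [F.fderiv_cpx, abs_mul]
      apply mul_le_mul (hL _) _ (abs_nonneg _) hL0
      refine (abs_real_inner_le_norm _ _).trans ?_
      rw [hw, mul_one]
      exact ContinuousLinearMap.le_opNorm _ _
    have g2 : ∀ v, |fderiv ℝ G x v| ≤ μ x * ‖v‖ := by
      intro v
      rw [F.grad, abs_mul, abs_of_nonneg (F.μ0 x)]
      have := abs_real_inner_le_norm (ν x) v
      rw [F.nν, one_mul] at this
      exact mul_le_mul_of_nonneg_left this (F.μ0 x)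
    unfold crl
    have t1 : |fderiv ℝ (cpx r ν w) x v * fderiv ℝ G x b|
        ≤ L * (‖fderiv ℝ ν x‖ * ‖v‖) * μ x := by
      rw [abs_mul]
      have := g2 b
      rw [hb, mul_one] at this
      exact mul_le_mul (g v) this (abs_nonneg _) (by positivity)
    have t2 : |fderiv ℝ (cpx r ν w) x b * fderiv ℝ G x v|
        ≤ L * ‖fderiv ℝ ν x‖ * (μ x * ‖v‖) := by
      rw [abs_mul]
      have := g b
      rw [hb, mul_one] at this
      exact mul_le_mul this (g2 v) (abs_nonneg _) (by positivity)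
    refine (abs_sub _ _).trans ?_
    nlinarith [t1, t2]
  have c1 := (F.contDiff_cpx r w₁).continuous
  have c2 := (F.contDiff_cpx r w₂).continuous
  have c3 := F.cμ
  have c4 : Continuous fun x => ‖fderiv ℝ ν x‖ := (F.cν.continuous_fderiv (by norm_num)).norm
  exact ⟨F.cG, F.contDiff_cpx r w₁, F.contDiff_cpx r w₂, pos w₁ hw₁ h1, pos w₂ hw₂ h2,
    c1.mul c3, c2.mul c3, by fun_prop,
    fun x => mul_nonneg (cpx_nonneg _ _ _ _) (F.μ0 x),
    fun x => mul_nonneg (cpx_nonneg _ _ _ _) (F.μ0 x),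
    fun x => mul_nonneg (by positivity) (mul_nonneg (F.μ0 x) (norm_nonneg _)),
    bd w₁, bd w₂, fun x v => cb w₁ x v hw₁, fun x v => cb w₂ x v hw₂⟩

/-- off the plane `x ⊥ w` the cap mass is controlled by `μ (x·ν)²`. -/
lemma Fld.cap_bound (F : Fld G μ ν) {r σ C : ℝ} (hr : 0 < r) (hσ : 0 < σ) (hC : r * C ≤ σ / 4)
    {w x : EE (m + 1)} (hw : ‖w‖ = 1) (hx : ‖x‖ ≤ C) (h : σ / 2 ≤ |inner ℝ x w|) :
    cpx r ν w x * μ x ≤ 16 / σ ^ 2 * (μ x * inner ℝ x (ν x) ^ 2) := by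
  by_cases h0 : cpx r ν w x = 0
  · rw [h0, zero_mul]
    have := F.μ0 x
    positivity
  · have h3 := F.norm_sub_le hr hw h0
    have h4 : |inner ℝ x (ν x - w)| ≤ ‖x‖ * ‖ν x - w‖ := abs_real_inner_le_norm _ _
    have h5 : ‖x‖ * ‖ν x - w‖ ≤ σ / 4 := by
      calc ‖x‖ * ‖ν x - w‖ ≤ C * r :=
            mul_le_mul hx h3 (norm_nonneg _) ((norm_nonneg _).trans hx)
        _ ≤ σ / 4 := by linarith
    rw [inner_sub_right] at h4
    have h6 : σ / 4 ≤ |inner ℝ x (ν x)| := by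
      have := abs_sub_abs_le_abs_sub (inner ℝ x w) (inner ℝ x (ν x))
      rw [abs_sub_comm] at this
      linarith
    have h7 : σ ^ 2 / 16 ≤ inner ℝ x (ν x) ^ 2 := by
      rw [← sq_abs (inner ℝ x (ν x))]
      nlinarith
    have h8 : 1 ≤ 16 / σ ^ 2 * inner ℝ x (ν x) ^ 2 := by
      calc (1:ℝ) = 16 / σ ^ 2 * (σ ^ 2 / 16) := by field_simp
        _ ≤ _ := mul_le_mul_of_nonneg_left h7 (by positivity)
    have h9 := cpx_le_one r ν w x
    have h10 := F.μ0 x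
    calc cpx r ν w x * μ x ≤ 1 * μ x := mul_le_mul_of_nonneg_right h9 h10
      _ ≤ (16 / σ ^ 2 * inner ℝ x (ν x) ^ 2) * μ x := mul_le_mul_of_nonneg_right h8 h10
      _ = _ := by ring

end Fld

end Vale.Agent.P134.H355
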