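import Mathlib

/-!
# P134, block M4-B1: the two-dimensional Chen (iterated integral) lemma

For densities `φ, ψ ≥ 0` along lines (parameter `t`), with `P = ∫ φ`, `Q = ∫ ψ`, the iterated
integral `J = ∫ arctan P * d (arctan Q)` detects the order in which the `φ`-mass and the `ψ`-mass
are crossed.  If `φ dt + α dλ` and `ψ dt + β dλ` are nearly closed and parallel (`α ψ = β φ`) then
`J` is nearly independent of `λ`.
-/

open MeasureTheory intervalIntegral Set

namespace Vale.Agent.P134.H355

lemma hasDerivAt_param {φ φ' : ℝ → ℝ → ℝ} (hφ : Continuous (Function.uncurry φ))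
    (hφ' : Continuous (Function.uncurry φ'))
    (hd : ∀ l t, HasDerivAt (fun l => φ l t) (φ' l t) l) (a b l : ℝ) :
    HasDerivAt (fun l => ∫ t in a..b, φ l t) (∫ t in a..b, φ' l t) l := by
  obtain ⟨C, hC⟩ := ((isCompact_Icc (a := l - 1) (b := l + 1)).prod
    (isCompact_uIcc (a := a) (b := b))).exists_bound_of_continuousOn
    (f := Function.uncurry φ') hφ'.continuousOn
  have hs : Icc (l - 1) (l + 1) ∈ nhds l := Icc_mem_nhds (by linarith) (by linarith)
  refine (intervalIntegral.hasDerivAt_integral_of_dominated_loc_of_deriv_le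
    (bound := fun _ => C) (F := φ) (F' := φ') hs ?_ ?_ ?_ ?_ ?_ ?_).2
  · refine Filter.Eventually.of_forall fun x => ?_
    exact (hφ.comp (Continuous.prodMk continuous_const continuous_id)).aestronglyMeasurable
  · exact (hφ.comp (Continuous.prodMk continuous_const continuous_id)).intervalIntegrable _ _
  · exact (hφ'.comp (Continuous.prodMk continuous_const continuous_id)).aestronglyMeasurable
  · refine Filter.Eventually.of_forall fun t ht x hx => ?_
    exact hC (x, t) ⟨hx, uIoc_subset_uIcc ht⟩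
  · exact intervalIntegrable_const
  · refine Filter.Eventually.of_forall fun t _ x _ => hd x t

section OneLine

variable {φ ψ : ℝ → ℝ} {T : ℝ}

/-- primitive from `-T`. -/
noncomputable def prim (T : ℝ) (φ : ℝ → ℝ) (t : ℝ) : ℝ := ∫ s in (-T)..t, φ s

/-- iterated integral of `d arctan P`, `d arctan Q`. -/
noncomputable def chenJ (T : ℝ) (φ ψ : ℝ → ℝ) : ℝ :=
  ∫ t in (-T)..T, Real.arctan (prim T φ t) * (ψ t / (1 + prim T ψ t ^ 2))

lemma hasDerivAt_prim (hφ : Continuous φ) (t : ℝ) : HasDerivAt (prim T φ) (φ t) t :=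
  intervalIntegral.integral_hasDerivAt_right (hφ.intervalIntegrable _ _)
    (hφ.stronglyMeasurableAtFilter _ _) hφ.continuousAt

lemma continuous_prim (hφ : Continuous φ) : Continuous (prim T φ) :=
  continuous_iff_continuousAt.mpr fun t => (hasDerivAt_prim hφ t).continuousAt

lemma prim_nonneg (h0 : ∀ t, 0 ≤ φ t) {t : ℝ} (ht : -T ≤ t) : 0 ≤ prim T φ t :=
  intervalIntegral.integral_nonneg ht fun s _ => h0 s

lemma prim_neg_T : prim T φ (-T) = 0 := by simp [prim]

lemma prim_sub (hφ : Continuous φ) (s t : ℝ) : prim T φ t - prim T φ s = ∫ r in s..t, φ r := by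
  unfold prim
  rw [intervalIntegral.integral_interval_sub_left (hφ.intervalIntegrable _ _)
    (hφ.intervalIntegrable _ _)]

lemma arctan_sub_le {x y : ℝ} (hxy : x ≤ y) : Real.arctan y - Real.arctan x ≤ y - x := by
  have hm : Monotone (fun z => z - Real.arctan z) := by
    apply monotone_of_deriv_nonneg
    · exact differentiable_id.sub Real.differentiable_arctan
    · intro z
      have h1 : HasDerivAt (fun z => z - Real.arctan z) (1 - 1 / (1 + z ^ 2)) z :=
        (hasDerivAt_id z).sub (Real.hasDerivAt_arctan z)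
      rw [h1.deriv]
      have : 1 / (1 + z ^ 2) ≤ 1 := by
        rw [div_le_one (by positivity)]; nlinarith [sq_nonneg z]
      linarith
  have := hm hxy
  simp only at this
  linarith

lemma arctan_le_self' {x : ℝ} (hx : 0 ≤ x) : Real.arctan x ≤ x := by
  have := arctan_sub_le hx
  rw [Real.arctan_zero] at this
  linarith

lemma arctan_nonneg' {x : ℝ} (hx : 0 ≤ x) : 0 ≤ Real.arctan x := Real.arctan_nonneg.mpr hx

lemma arctan_le_two (x : ℝ) : Real.arctan x ≤ 2 := by
  have h1 := Real.arctan_lt_pi_div_two x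
  have h2 := Real.pi_lt_d2
  linarith

lemma hasDerivAt_arctan_prim (hψ : Continuous ψ) (t : ℝ) :
    HasDerivAt (fun t => Real.arctan (prim T ψ t)) (ψ t / (1 + prim T ψ t ^ 2)) t := by
  have := (hasDerivAt_prim (T := T) hψ t).arctan
  convert this using 1
  ring

lemma continuous_quot (hψ : Continuous ψ) : Continuous fun t => ψ t / (1 + prim T ψ t ^ 2) := by
  have h1 := continuous_prim (T := T) hψ
  exact hψ.div (by fun_prop) fun t => by positivity

lemma integral_quot (hψ : Continuous ψ) (a b : ℝ) :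
    ∫ t in a..b, ψ t / (1 + prim T ψ t ^ 2)
      = Real.arctan (prim T ψ b) - Real.arctan (prim T ψ a) :=
  intervalIntegral.integral_eq_sub_of_hasDerivAt (fun t _ => hasDerivAt_arctan_prim hψ t)
    ((continuous_quot hψ).intervalIntegrable _ _)

lemma continuous_chen (hφ : Continuous φ) (hψ : Continuous ψ) :
    Continuous fun t => Real.arctan (prim T φ t) * (ψ t / (1 + prim T ψ t ^ 2)) :=
  (Real.continuous_arctan.comp (continuous_prim hφ)).mul (continuous_quot hψ)

lemma quot_nonneg (h0 : ∀ t, 0 ≤ ψ t) (t : ℝ) : 0 ≤ ψ t / (1 + prim T ψ t ^ 2) :=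
  div_nonneg (h0 t) (by positivity)

lemma prim_mono (hφ : Continuous φ) (h0 : ∀ t, 0 ≤ φ t) {s t : ℝ} (hst : s ≤ t) :
    prim T φ s ≤ prim T φ t := by
  have := prim_sub (T := T) hφ s t
  have h2 : 0 ≤ ∫ r in s..t, φ r := intervalIntegral.integral_nonneg hst fun r _ => h0 r
  linarith

/-- lower bound: `φ` is crossed before `ψ`. -/
lemma chenJ_lower (hT : 0 ≤ T) (hφ : Continuous φ) (hψ : Continuous ψ) (hφ0 : ∀ t, 0 ≤ φ t)
    (hψ0 : ∀ t, 0 ≤ ψ t) :
    Real.arctan (prim T φ T) * Real.arctan (prim T ψ T)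
      ≤ chenJ T φ ψ + 2 * (∫ t in (0:ℝ)..T, φ t) + 2 * ∫ t in (-T)..0, ψ t := by
  have hint : ∀ a b, IntervalIntegrable
      (fun t => Real.arctan (prim T φ t) * (ψ t / (1 + prim T ψ t ^ 2))) volume a b :=
    fun a b => (continuous_chen hφ hψ).intervalIntegrable _ _
  have hsplit : chenJ T φ ψ = (∫ t in (-T)..0, Real.arctan (prim T φ t) *
      (ψ t / (1 + prim T ψ t ^ 2))) + ∫ t in (0:ℝ)..T, Real.arctan (prim T φ t) *
      (ψ t / (1 + prim T ψ t ^ 2)) := by
    rw [chenJ, intervalIntegral.integral_add_adjacent_intervals (hint _ _) (hint _ _)]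
  have h1 : 0 ≤ ∫ t in (-T)..0, Real.arctan (prim T φ t) * (ψ t / (1 + prim T ψ t ^ 2)) := by
    apply intervalIntegral.integral_nonneg (by linarith)
    intro t ht
    exact mul_nonneg (arctan_nonneg' (prim_nonneg hφ0 ht.1)) (quot_nonneg hψ0 t)
  have h2 : Real.arctan (prim T φ 0) * (Real.arctan (prim T ψ T) - Real.arctan (prim T ψ 0))
      ≤ ∫ t in (0:ℝ)..T, Real.arctan (prim T φ t) * (ψ t / (1 + prim T ψ t ^ 2)) := by
    rw [← integral_quot hψ, ← intervalIntegral.integral_const_mul]
    apply intervalIntegral.integral_mono_on hT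
      ((continuous_const.mul (continuous_quot hψ)).intervalIntegrable _ _) (hint _ _)
    intro t ht
    exact mul_le_mul_of_nonneg_right (Real.arctan_strictMono.monotone
      (prim_mono hφ hφ0 ht.1)) (quot_nonneg hψ0 t)
  have e1 : prim T φ T - prim T φ 0 = ∫ t in (0:ℝ)..T, φ t := prim_sub hφ 0 T
  have e2 : prim T ψ 0 = ∫ t in (-T)..0, ψ t := rfl
  have m1 : prim T φ 0 ≤ prim T φ T := prim_mono hφ hφ0 hT
  have m2 : prim T ψ 0 ≤ prim T ψ T := prim_mono hψ hψ0 hT
  have p0 : 0 ≤ prim T ψ 0 := prim_nonneg hψ0 (by linarith)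
  have a1 := arctan_sub_le m1
  have a2 := arctan_le_self' p0
  have a3 := arctan_le_two (prim T φ T)
  have a4 := arctan_le_two (prim T ψ T)
  have a5 : Real.arctan (prim T ψ 0) ≤ Real.arctan (prim T ψ T) :=
    Real.arctan_strictMono.monotone m2
  have a6 := arctan_nonneg' p0
  have a7 : 0 ≤ Real.arctan (prim T φ T) := arctan_nonneg' (prim_nonneg hφ0 (by linarith))
  have a8 : Real.arctan (prim T φ 0) ≤ Real.arctan (prim T φ T) :=
    Real.arctan_strictMono.monotone m1
  nlinarith [mul_nonneg (sub_nonneg.mpr a8) (sub_nonneg.mpr a5), mul_nonneg a7 a6]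

/-- upper bound: `ψ` is crossed before `φ`. -/
lemma chenJ_upper (hT : 0 ≤ T) (hφ : Continuous φ) (hψ : Continuous ψ) (hφ0 : ∀ t, 0 ≤ φ t)
    (hψ0 : ∀ t, 0 ≤ ψ t) :
    chenJ T φ ψ ≤ 2 * (∫ t in (-T)..0, φ t) + 2 * ∫ t in (0:ℝ)..T, ψ t := by
  have hint : ∀ a b, IntervalIntegrable
      (fun t => Real.arctan (prim T φ t) * (ψ t / (1 + prim T ψ t ^ 2))) volume a b :=
    fun a b => (continuous_chen hφ hψ).intervalIntegrable _ _
  have hsplit : chenJ T φ ψ = (∫ t in (-T)..0, Real.arctan (prim T φ t) *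
      (ψ t / (1 + prim T ψ t ^ 2))) + ∫ t in (0:ℝ)..T, Real.arctan (prim T φ t) *
      (ψ t / (1 + prim T ψ t ^ 2)) := by
    rw [chenJ, intervalIntegral.integral_add_adjacent_intervals (hint _ _) (hint _ _)]
  have h1 : (∫ t in (-T)..0, Real.arctan (prim T φ t) * (ψ t / (1 + prim T ψ t ^ 2)))
      ≤ Real.arctan (prim T φ 0) * (Real.arctan (prim T ψ 0) - Real.arctan (prim T ψ (-T))) := by
    rw [← integral_quot hψ, ← intervalIntegral.integral_const_mul]
    apply intervalIntegral.integral_mono_on (by linarith) (hint _ _)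
      ((continuous_const.mul (continuous_quot hψ)).intervalIntegrable _ _)
    intro t ht
    exact mul_le_mul_of_nonneg_right (Real.arctan_strictMono.monotone
      (prim_mono hφ hφ0 ht.2)) (quot_nonneg hψ0 t)
  have h2 : (∫ t in (0:ℝ)..T, Real.arctan (prim T φ t) * (ψ t / (1 + prim T ψ t ^ 2)))
      ≤ 2 * (Real.arctan (prim T ψ T) - Real.arctan (prim T ψ 0)) := by
    rw [← integral_quot hψ, ← intervalIntegral.integral_const_mul]
    apply intervalIntegral.integral_mono_on hT (hint _ _)
      ((continuous_const.mul (continuous_quot hψ)).intervalIntegrable _ _)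
    intro t ht
    exact mul_le_mul_of_nonneg_right (arctan_le_two _) (quot_nonneg hψ0 t)
  have e1 : prim T ψ T - prim T ψ 0 = ∫ t in (0:ℝ)..T, ψ t := prim_sub hψ 0 T
  have e2 : prim T φ 0 = ∫ t in (-T)..0, φ t := rfl
  have m2 : prim T ψ 0 ≤ prim T ψ T := prim_mono hψ hψ0 hT
  have p0 : 0 ≤ prim T φ 0 := prim_nonneg hφ0 (by linarith)
  have p1 : 0 ≤ prim T ψ 0 := prim_nonneg hψ0 (by linarith)
  have a1 := arctan_sub_le m2
  have a2 := arctan_le_self' p0
  have a3 := arctan_le_two (prim T ψ 0)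
  have a4 : Real.arctan (prim T ψ (-T)) = 0 := by rw [prim_neg_T, Real.arctan_zero]
  have a5 := arctan_nonneg' p0
  have a6 := arctan_nonneg' p1
  rw [a4] at h1
  nlinarith [mul_nonneg a5 (sub_nonneg.mpr a3)]

end OneLine


section TwoDim

variable {φ ψ α α' β β' κ κ' : ℝ → ℝ → ℝ} {T : ℝ}

lemma cont_slice {f : ℝ → ℝ → ℝ} (hf : Continuous (Function.uncurry f)) (l : ℝ) :
    Continuous (f l) := hf.comp (Continuous.prodMk continuous_const continuous_id)

lemma cont_prim (hφ : Continuous (Function.uncurry φ)) :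
    Continuous (Function.uncurry fun l t => prim T (φ l) t) := by
  have h : Continuous (Function.uncurry (fun (p : ℝ × ℝ) (s : ℝ) => φ p.1 s)) := by
    have : (Function.uncurry (fun (p : ℝ × ℝ) (s : ℝ) => φ p.1 s))
        = Function.uncurry φ ∘ fun q : (ℝ × ℝ) × ℝ => (q.1.1, q.2) := rfl
    rw [this]
    exact hφ.comp (by fun_prop)
  exact intervalIntegral.continuous_parametric_intervalIntegral_of_continuous (μ := volume)
    (a₀ := -T) h continuous_snd

/-- The data of a pair of nearly closed parallel 1-forms `φ dt + α dl`, `ψ dt + β dl`. -/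
structure Pair (φ ψ α α' β β' κ κ' : ℝ → ℝ → ℝ) : Prop where
  cφ : Continuous (Function.uncurry φ)
  cψ : Continuous (Function.uncurry ψ)
  cα : Continuous (Function.uncurry α)
  cβ : Continuous (Function.uncurry β)
  cα' : Continuous (Function.uncurry α')
  cβ' : Continuous (Function.uncurry β')
  cκ : Continuous (Function.uncurry κ)
  cκ' : Continuous (Function.uncurry κ')
  dφ : ∀ l t, HasDerivAt (fun l => φ l t) (α' l t + κ l t) l
  dψ : ∀ l t, HasDerivAt (fun l => ψ l t) (β' l t + κ' l t) l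
  dα : ∀ l t, HasDerivAt (fun t => α l t) (α' l t) t
  dβ : ∀ l t, HasDerivAt (fun t => β l t) (β' l t) t
  par : ∀ l t, α l t * ψ l t = β l t * φ l t
  nφ : ∀ l t, 0 ≤ φ l t
  nψ : ∀ l t, 0 ≤ ψ l t

/-- the error in the derivative of the primitive -/
noncomputable def err (T : ℝ) (α κ : ℝ → ℝ → ℝ) (l t : ℝ) : ℝ :=
  -α l (-T) + ∫ s in (-T)..t, κ l s

lemma cont_err (hα : Continuous (Function.uncurry α)) (hκ : Continuous (Function.uncurry κ)) :
    Continuous (Function.uncurry (err T α κ)) := by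
  have h1 := cont_prim (T := T) hκ
  have h2 : Continuous fun p : ℝ × ℝ => α p.1 (-T) :=
    hα.comp (Continuous.prodMk continuous_fst continuous_const)
  exact h2.neg.add h1

lemma Pair.deriv_prim (h : Pair φ ψ α α' β β' κ κ') (l t : ℝ) :
    HasDerivAt (fun l => prim T (φ l) t) (α l t + err T α κ l t) l := by
  have hc : Continuous (Function.uncurry fun l t => α' l t + κ l t) := h.cα'.add h.cκ
  have h1 := hasDerivAt_param h.cφ hc h.dφ (-T) t l
  have h2 : ∫ s in (-T)..t, (α' l s + κ l s) = α l t + err T α κ l t := by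
    rw [intervalIntegral.integral_add ((cont_slice h.cα' l).intervalIntegrable _ _)
      ((cont_slice h.cκ l).intervalIntegrable _ _),
      intervalIntegral.integral_eq_sub_of_hasDerivAt (fun s _ => h.dα l s)
      ((cont_slice h.cα' l).intervalIntegrable _ _)]
    unfold err
    ring
  rw [h2] at h1
  exact h1

lemma Pair.swap (h : Pair φ ψ α α' β β' κ κ') : Pair ψ φ β β' α α' κ' κ :=
  ⟨h.cψ, h.cφ, h.cβ, h.cα, h.cβ', h.cα', h.cκ', h.cκ, h.dψ, h.dφ, h.dβ, h.dα,
    fun l t => (h.par l t).symm, h.nψ, h.nφ⟩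

lemma abs_err_le (h : Continuous (Function.uncurry κ)) {l t : ℝ} (h1 : -T ≤ t) (h2 : t ≤ T) :
    |err T α κ l t| ≤ |α l (-T)| + ∫ s in (-T)..T, |κ l s| := by
  unfold err
  have hc := cont_slice h l
  have a1 : |∫ s in (-T)..t, κ l s| ≤ ∫ s in (-T)..t, |κ l s| :=
    intervalIntegral.abs_integral_le_integral_abs h1
  have a2 : (∫ s in (-T)..t, |κ l s|) ≤ ∫ s in (-T)..T, |κ l s| := by
    apply intervalIntegral.integral_mono_interval le_rfl h1 h2
    · exact Filter.Eventually.of_forall fun s => abs_nonneg _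
    · exact hc.abs.intervalIntegrable _ _
  calc |-α l (-T) + ∫ s in (-T)..t, κ l s| ≤ |-α l (-T)| + |∫ s in (-T)..t, κ l s| :=
        abs_add_le _ _
    _ ≤ _ := by rw [abs_neg]; linarith

/-- the quantity controlling the variation of `J` -/
noncomputable def kk (T : ℝ) (α β κ κ' : ℝ → ℝ → ℝ) (l : ℝ) : ℝ :=
  |β l T| + |α l (-T)| + |β l (-T)| + (∫ s in (-T)..T, |κ l s|) + ∫ s in (-T)..T, |κ' l s|

/-- derivative of the integrand of `J` in `l`. -/
noncomputable def kl (T : ℝ) (φ ψ α β β' κ κ' : ℝ → ℝ → ℝ) (l t : ℝ) : ℝ :=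
  ((α l t + err T α κ l t) / (1 + prim T (φ l) t ^ 2)) * (ψ l t / (1 + prim T (ψ l) t ^ 2))
  + Real.arctan (prim T (φ l) t) *
    (((β' l t + κ' l t) * (1 + prim T (ψ l) t ^ 2)
      - ψ l t * (2 * prim T (ψ l) t * (β l t + err T β κ' l t))) / (1 + prim T (ψ l) t ^ 2) ^ 2)

lemma Pair.cont_kl (h : Pair φ ψ α α' β β' κ κ') :
    Continuous (Function.uncurry (kl T φ ψ α β β' κ κ')) := by
  have p1 := cont_prim (T := T) h.cφ
  have p2 := cont_prim (T := T) h.cψ
  have e1 := cont_err (T := T) h.cα h.cκ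
  have e2 := cont_err (T := T) h.cβ h.cκ'
  have c1 := h.cα
  have c2 := h.cβ
  have c3 := h.cψ
  have c4 := h.cβ'
  have c5 := h.cκ'
  unfold kl
  simp only [Function.uncurry_def] at *
  refine Continuous.add ?_ ?_
  · refine Continuous.mul ?_ ?_
    · exact (c1.add e1).div (by fun_prop) fun p => by positivity
    · exact c3.div (by fun_prop) fun p => by positivity
  · refine Continuous.mul (Real.continuous_arctan.comp p1) ?_
    exact Continuous.div (by fun_prop) (by fun_prop) fun p => by positivity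

lemma Pair.deriv_chenJ (h : Pair φ ψ α α' β β' κ κ') (l : ℝ) :
    HasDerivAt (fun l => chenJ T (φ l) (ψ l)) (∫ t in (-T)..T, kl T φ ψ α β β' κ κ' l t) l := by
  refine hasDerivAt_param (φ := fun l t => Real.arctan (prim T (φ l) t) *
    (ψ l t / (1 + prim T (ψ l) t ^ 2))) ?_ h.cont_kl ?_ (-T) T l
  · have p1 := cont_prim (T := T) h.cφ
    have p2 := cont_prim (T := T) h.cψ
    have c3 := h.cψ
    simp only [Function.uncurry_def] at *
    exact (Real.continuous_arctan.comp p1).mul (c3.div (by fun_prop) fun p => by positivity)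
  · intro l t
    have d1 := (h.deriv_prim (T := T) l t).arctan
    have d2 := h.swap.deriv_prim (T := T) l t
    have d3 : HasDerivAt (fun l => 1 + prim T (ψ l) t ^ 2)
        (2 * prim T (ψ l) t * (β l t + err T β κ' l t)) l := by
      have := (d2.pow 2).const_add 1
      simpa [mul_assoc] using this
    have d4 := (h.dψ l t).div d3 (by positivity)
    have d5 := d1.mul d4
    refine d5.congr_deriv ?_
    simp only [kl, Pi.div_apply]
    ring

/-- the remainder after integrating by parts -/
noncomputable def kr (T : ℝ) (φ ψ α β κ κ' : ℝ → ℝ → ℝ) (l t : ℝ) : ℝ :=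
  err T α κ l t * (1 / (1 + prim T (φ l) t ^ 2)) * (ψ l t / (1 + prim T (ψ l) t ^ 2))
  + Real.arctan (prim T (φ l) t) * (κ' l t / (1 + prim T (ψ l) t ^ 2))
  - Real.arctan (prim T (φ l) t) * (err T β κ' l t *
    (2 * prim T (ψ l) t * ψ l t / (1 + prim T (ψ l) t ^ 2) ^ 2))

lemma Pair.kl_integral (h : Pair φ ψ α α' β β' κ κ') (l : ℝ) :
    ∫ t in (-T)..T, kl T φ ψ α β β' κ κ' l t
      = Real.arctan (prim T (φ l) T) * (β l T / (1 + prim T (ψ l) T ^ 2))
        + ∫ t in (-T)..T, kr T φ ψ α β κ κ' l t := by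
  have p1 := continuous_prim (T := T) (cont_slice h.cφ l)
  have p2 := continuous_prim (T := T) (cont_slice h.cψ l)
  have e1 := cont_slice (cont_err (T := T) h.cα h.cκ) l
  have e2 := cont_slice (cont_err (T := T) h.cβ h.cκ') l
  have c1 := cont_slice h.cα l
  have c2 := cont_slice h.cβ l
  have c3 := cont_slice h.cψ l
  have c3' := cont_slice h.cφ l
  have c4 := cont_slice h.cβ' l
  have c5 := cont_slice h.cκ' l
  have hkr : Continuous (kr T φ ψ α β κ κ' l) := by
    unfold kr
    refine Continuous.sub (Continuous.add ?_ ?_) ?_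
    · exact (e1.mul (Continuous.div (by fun_prop) (by fun_prop) fun p => by positivity)).mul
        (c3.div (by fun_prop) fun p => by positivity)
    · exact (Real.continuous_arctan.comp p1).mul (c5.div (by fun_prop) fun p => by positivity)
    · exact (Real.continuous_arctan.comp p1).mul (e2.mul
        (Continuous.div (by fun_prop) (by fun_prop) fun p => by positivity))
  set B' : ℝ → ℝ := fun t => (φ l t / (1 + prim T (φ l) t ^ 2)) * (β l t / (1 + prim T (ψ l) t ^ 2))
    + Real.arctan (prim T (φ l) t) * ((β' l t * (1 + prim T (ψ l) t ^ 2)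
      - β l t * (2 * prim T (ψ l) t * ψ l t)) / (1 + prim T (ψ l) t ^ 2) ^ 2) with hB'
  have hB'c : Continuous B' := by
    refine Continuous.add ?_ ?_
    · exact (c3'.div (by fun_prop) fun p => by positivity).mul
        (c2.div (by fun_prop) fun p => by positivity)
    · exact (Real.continuous_arctan.comp p1).mul
        (Continuous.div (by fun_prop) (by fun_prop) fun p => by positivity)
  have hBd : ∀ t, HasDerivAt (fun t => Real.arctan (prim T (φ l) t) *
      (β l t / (1 + prim T (ψ l) t ^ 2))) (B' t) t := by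
    intro t
    have d1 := (hasDerivAt_prim (T := T) c3' t).arctan
    have d2 := hasDerivAt_prim (T := T) c3 t
    have d3 : HasDerivAt (fun t => 1 + prim T (ψ l) t ^ 2)
        (2 * prim T (ψ l) t * ψ l t) t := by
      have := (d2.pow 2).const_add 1
      simpa [mul_assoc] using this
    have d4 := (h.dβ l t).div d3 (by positivity)
    have d5 := d1.mul d4
    refine d5.congr_deriv ?_
    simp only [hB', Pi.div_apply]
    ring
  have hsum : ∀ t, kl T φ ψ α β β' κ κ' l t = B' t + kr T φ ψ α β κ κ' l t := by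
    intro t
    have hp := h.par l t
    have q1 : (1 + prim T (φ l) t ^ 2) ≠ 0 := by positivity
    have q2 : (1 + prim T (ψ l) t ^ 2) ≠ 0 := by positivity
    simp only [kl, hB', kr]
    field_simp
    linear_combination (1 + prim T (ψ l) t ^ 2) * hp
  rw [intervalIntegral.integral_congr (g := fun t => B' t + kr T φ ψ α β κ κ' l t)
    (fun t _ => hsum t), intervalIntegral.integral_add (hB'c.intervalIntegrable _ _)
    (hkr.intervalIntegrable _ _),
    intervalIntegral.integral_eq_sub_of_hasDerivAt (fun t _ => hBd t)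
    (hB'c.intervalIntegrable _ _)]
  rw [prim_neg_T, Real.arctan_zero]
  ring

/-- **Chen lemma**: `J` varies by at most `2 kk`. -/
lemma Pair.abs_deriv_le (h : Pair φ ψ α α' β β' κ κ') (hT : 0 ≤ T) (l : ℝ) :
    |∫ t in (-T)..T, kl T φ ψ α β β' κ κ' l t| ≤ 4 * kk T α β κ κ' l := by
  have p1 := continuous_prim (T := T) (cont_slice h.cφ l)
  have p2 := continuous_prim (T := T) (cont_slice h.cψ l)
  have c3 := cont_slice h.cψ l
  have c5 := cont_slice h.cκ' l
  have hTT : -T ≤ T := by linarith
  set A := |α l (-T)| + ∫ s in (-T)..T, |κ l s| with hA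
  set B := |β l (-T)| + ∫ s in (-T)..T, |κ' l s| with hB
  have hA0 : 0 ≤ A := by
    have := intervalIntegral.integral_nonneg hTT (f := fun s => |κ l s|) (μ := volume)
      fun s _ => abs_nonneg _
    positivity
  have hB0 : 0 ≤ B := by
    have := intervalIntegral.integral_nonneg hTT (f := fun s => |κ' l s|) (μ := volume)
      fun s _ => abs_nonneg _
    positivity
  -- pointwise bound
  set D : ℝ → ℝ := fun t => A * (ψ l t / (1 + prim T (ψ l) t ^ 2)) + 2 * |κ' l t|
    + 2 * (B * (2 * prim T (ψ l) t * ψ l t / (1 + prim T (ψ l) t ^ 2) ^ 2)) with hD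
  have hq : Continuous fun t => 2 * prim T (ψ l) t * ψ l t / (1 + prim T (ψ l) t ^ 2) ^ 2 :=
    Continuous.div (by fun_prop) (by fun_prop) fun p => by positivity
  have hDc : Continuous D := by
    refine ((continuous_const.mul (continuous_quot c3)).add (continuous_const.mul c5.abs)).add
      (continuous_const.mul (continuous_const.mul hq))
  have hpt : ∀ t ∈ Set.Icc (-T) T, |kr T φ ψ α β κ κ' l t| ≤ D t := by
    intro t ht
    have hP : 0 ≤ prim T (φ l) t := prim_nonneg (h.nφ l) ht.1
    have hQ : 0 ≤ prim T (ψ l) t := prim_nonneg (h.nψ l) ht.1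
    have e1 : |err T α κ l t| ≤ A := abs_err_le h.cκ ht.1 ht.2
    have e2 : |err T β κ' l t| ≤ B := abs_err_le h.cκ' ht.1 ht.2
    have a0 := arctan_nonneg' hP
    have a1 := arctan_le_two (prim T (φ l) t)
    have i1 : 0 ≤ 1 / (1 + prim T (φ l) t ^ 2) := by positivity
    have i2 : 1 / (1 + prim T (φ l) t ^ 2) ≤ 1 := by
      rw [div_le_one (by positivity)]; nlinarith [sq_nonneg (prim T (φ l) t)]
    have j1 : 0 ≤ ψ l t / (1 + prim T (ψ l) t ^ 2) := quot_nonneg (h.nψ l) t
    have k1 : |κ' l t / (1 + prim T (ψ l) t ^ 2)| ≤ |κ' l t| := by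
      rw [abs_div, abs_of_pos (show (0:ℝ) < 1 + prim T (ψ l) t ^ 2 by positivity)]
      exact div_le_self (abs_nonneg _) (by nlinarith [sq_nonneg (prim T (ψ l) t)])
    have j2 : 0 ≤ 2 * prim T (ψ l) t * ψ l t / (1 + prim T (ψ l) t ^ 2) ^ 2 :=
      div_nonneg (mul_nonneg (by positivity) (h.nψ l t)) (by positivity)
    have t1 : |err T α κ l t * (1 / (1 + prim T (φ l) t ^ 2)) * (ψ l t / (1 + prim T (ψ l) t ^ 2))|
        ≤ A * (ψ l t / (1 + prim T (ψ l) t ^ 2)) := by
      rw [abs_mul, abs_mul, abs_of_nonneg i1, abs_of_nonneg j1]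
      apply mul_le_mul_of_nonneg_right _ j1
      calc |err T α κ l t| * (1 / (1 + prim T (φ l) t ^ 2)) ≤ |err T α κ l t| * 1 :=
            mul_le_mul_of_nonneg_left i2 (abs_nonneg _)
        _ ≤ A := by linarith
    have t2 : |Real.arctan (prim T (φ l) t) * (κ' l t / (1 + prim T (ψ l) t ^ 2))|
        ≤ 2 * |κ' l t| := by
      rw [abs_mul, abs_of_nonneg a0]
      exact mul_le_mul a1 k1 (abs_nonneg _) (by norm_num)
    have t3 : |Real.arctan (prim T (φ l) t) * (err T β κ' l t *
        (2 * prim T (ψ l) t * ψ l t / (1 + prim T (ψ l) t ^ 2) ^ 2))|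
        ≤ 2 * (B * (2 * prim T (ψ l) t * ψ l t / (1 + prim T (ψ l) t ^ 2) ^ 2)) := by
      rw [abs_mul, abs_mul, abs_of_nonneg a0, abs_of_nonneg j2]
      exact mul_le_mul a1 (mul_le_mul_of_nonneg_right e2 j2)
        (mul_nonneg (abs_nonneg _) j2) (by norm_num)
    unfold kr
    calc _ ≤ |err T α κ l t * (1 / (1 + prim T (φ l) t ^ 2)) * (ψ l t / (1 + prim T (ψ l) t ^ 2))
        + Real.arctan (prim T (φ l) t) * (κ' l t / (1 + prim T (ψ l) t ^ 2))|
        + |Real.arctan (prim T (φ l) t) * (err T β κ' l t *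
        (2 * prim T (ψ l) t * ψ l t / (1 + prim T (ψ l) t ^ 2) ^ 2))| := abs_sub _ _
      _ ≤ D t := by
        have := abs_add_le (err T α κ l t * (1 / (1 + prim T (φ l) t ^ 2)) *
          (ψ l t / (1 + prim T (ψ l) t ^ 2)))
          (Real.arctan (prim T (φ l) t) * (κ' l t / (1 + prim T (ψ l) t ^ 2)))
        simp only [hD]
        linarith
  have hint : |∫ t in (-T)..T, kr T φ ψ α β κ κ' l t| ≤ ∫ t in (-T)..T, D t := by
    rw [← Real.norm_eq_abs]
    refine intervalIntegral.norm_integral_le_of_norm_le hTT ?_ (hDc.intervalIntegrable _ _)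
    exact Filter.Eventually.of_forall fun t ht => by
      rw [Real.norm_eq_abs]; exact hpt t ⟨ht.1.le, ht.2⟩
  -- the integral of D
  have hq1 : ∫ t in (-T)..T, ψ l t / (1 + prim T (ψ l) t ^ 2) ≤ 2 := by
    rw [integral_quot c3, prim_neg_T, Real.arctan_zero, sub_zero]
    exact arctan_le_two _
  have hq2 : ∫ t in (-T)..T, 2 * prim T (ψ l) t * ψ l t / (1 + prim T (ψ l) t ^ 2) ^ 2 ≤ 1 := by
    have hd : ∀ t, HasDerivAt (fun t => -(1 / (1 + prim T (ψ l) t ^ 2)))
        (2 * prim T (ψ l) t * ψ l t / (1 + prim T (ψ l) t ^ 2) ^ 2) t := by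
      intro t
      have d2 := hasDerivAt_prim (T := T) c3 t
      have d3 : HasDerivAt (fun t => 1 + prim T (ψ l) t ^ 2)
          (2 * prim T (ψ l) t * ψ l t) t := by
        have := (d2.pow 2).const_add 1
        simpa [mul_assoc] using this
      have d4 := (d3.inv (by positivity)).neg
      refine (d4.congr_deriv ?_).congr_of_eventuallyEq ?_
      · ring
      · exact Filter.Eventually.of_forall fun s => by simp
    rw [intervalIntegral.integral_eq_sub_of_hasDerivAt (fun t _ => hd t)
      (hq.intervalIntegrable _ _), prim_neg_T]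
    have : 0 ≤ 1 / (1 + prim T (ψ l) T ^ 2) := by positivity
    norm_num
    simpa using this
  have hDint : ∫ t in (-T)..T, D t ≤ 2 * A + 2 * (∫ s in (-T)..T, |κ' l s|) + 2 * B := by
    have i1 : IntervalIntegrable (fun t => A * (ψ l t / (1 + prim T (ψ l) t ^ 2))) volume (-T) T :=
      (continuous_const.mul (continuous_quot c3)).intervalIntegrable _ _
    have i2 : IntervalIntegrable (fun t => 2 * |κ' l t|) volume (-T) T :=
      (continuous_const.mul c5.abs).intervalIntegrable _ _
    have i3 : IntervalIntegrable (fun t => 2 * (B * (2 * prim T (ψ l) t * ψ l t /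
        (1 + prim T (ψ l) t ^ 2) ^ 2))) volume (-T) T :=
      (continuous_const.mul (continuous_const.mul hq)).intervalIntegrable _ _
    have : ∫ t in (-T)..T, D t = A * (∫ t in (-T)..T, ψ l t / (1 + prim T (ψ l) t ^ 2))
        + 2 * (∫ s in (-T)..T, |κ' l s|)
        + 2 * (B * ∫ t in (-T)..T, 2 * prim T (ψ l) t * ψ l t / (1 + prim T (ψ l) t ^ 2) ^ 2) := by
      rw [hD, intervalIntegral.integral_add (i1.add i2) i3, intervalIntegral.integral_add i1 i2]
      simp only [intervalIntegral.integral_const_mul]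
    rw [this]
    nlinarith [mul_le_mul_of_nonneg_left hq1 hA0, mul_le_mul_of_nonneg_left hq2 hB0]
  have hbd : |Real.arctan (prim T (φ l) T) * (β l T / (1 + prim T (ψ l) T ^ 2))| ≤ 2 * |β l T| := by
    have a0 := arctan_nonneg' (prim_nonneg (h.nφ l) hTT)
    rw [abs_mul, abs_of_nonneg a0]
    apply mul_le_mul (arctan_le_two _) _ (abs_nonneg _) (by norm_num)
    rw [abs_div, abs_of_pos (show (0:ℝ) < 1 + prim T (ψ l) T ^ 2 by positivity)]
    exact div_le_self (abs_nonneg _) (by nlinarith [sq_nonneg (prim T (ψ l) T)])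
  rw [h.kl_integral]
  have := abs_add_le (Real.arctan (prim T (φ l) T) * (β l T / (1 + prim T (ψ l) T ^ 2)))
    (∫ t in (-T)..T, kr T φ ψ α β κ κ' l t)
  have n1 : 0 ≤ ∫ s in (-T)..T, |κ l s| := intervalIntegral.integral_nonneg hTT
    fun s _ => abs_nonneg _
  have n2 : 0 ≤ ∫ s in (-T)..T, |κ' l s| := intervalIntegral.integral_nonneg hTT
    fun s _ => abs_nonneg _
  have n3 := abs_nonneg (α l (-T))
  have n4 := abs_nonneg (β l (-T))
  have n5 := abs_nonneg (β l T)
  unfold kk
  simp only [hA, hB] at hDint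
  linarith

lemma Pair.continuous_kk (h : Pair φ ψ α α' β β' κ κ') : Continuous (kk T α β κ κ') := by
  unfold kk
  have b1 : Continuous fun l => β l T := h.cβ.comp (Continuous.prodMk continuous_id continuous_const)
  have b2 : Continuous fun l => α l (-T) :=
    h.cα.comp (Continuous.prodMk continuous_id continuous_const)
  have b3 : Continuous fun l => β l (-T) :=
    h.cβ.comp (Continuous.prodMk continuous_id continuous_const)
  have b4 : Continuous fun l => ∫ s in (-T)..T, |κ l s| :=
    intervalIntegral.continuous_parametric_intervalIntegral_of_continuous'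
      (f := fun l s => |κ l s|) h.cκ.abs _ _
  have b5 : Continuous fun l => ∫ s in (-T)..T, |κ' l s| :=
    intervalIntegral.continuous_parametric_intervalIntegral_of_continuous'
      (f := fun l s => |κ' l s|) h.cκ'.abs _ _
  exact (((b1.abs.add b2.abs).add b3.abs).add b4).add b5

/-- integrated form, `l` from `0` to `1`. -/
lemma Pair.chenJ_diff (h : Pair φ ψ α α' β β' κ κ') (hT : 0 ≤ T) :
    |chenJ T (φ 1) (ψ 1) - chenJ T (φ 0) (ψ 0)| ≤ 4 * ∫ l in (0:ℝ)..1, kk T α β κ κ' l := by
  have hc : Continuous fun l => ∫ t in (-T)..T, kl T φ ψ α β β' κ κ' l t :=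
    intervalIntegral.continuous_parametric_intervalIntegral_of_continuous' h.cont_kl _ _
  have h1 := intervalIntegral.integral_eq_sub_of_hasDerivAt (a := (0:ℝ)) (b := 1)
    (fun l _ => h.deriv_chenJ (T := T) l) (hc.intervalIntegrable _ _)
  rw [← h1, ← Real.norm_eq_abs, ← intervalIntegral.integral_const_mul]
  refine intervalIntegral.norm_integral_le_of_norm_le (by norm_num) ?_
    ((continuous_const.mul h.continuous_kk).intervalIntegrable _ _)
  exact Filter.Eventually.of_forall fun l _ => by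
    rw [Real.norm_eq_abs]; exact h.abs_deriv_le hT l

/-- variation of the total mass. -/
lemma Pair.prim_diff (h : Pair φ ψ α α' β β' κ κ') (hT : 0 ≤ T) :
    |prim T (φ 1) T - prim T (φ 0) T| ≤
      ∫ l in (0:ℝ)..1, (|α l T| + |α l (-T)| + ∫ s in (-T)..T, |κ l s|) := by
  have b1 : Continuous fun l => α l T := h.cα.comp (Continuous.prodMk continuous_id continuous_const)
  have b2 : Continuous fun l => α l (-T) :=
    h.cα.comp (Continuous.prodMk continuous_id continuous_const)
  have b4 : Continuous fun l => ∫ s in (-T)..T, |κ l s| :=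
    intervalIntegral.continuous_parametric_intervalIntegral_of_continuous'
      (f := fun l s => |κ l s|) h.cκ.abs _ _
  have b5 : Continuous fun l => err T α κ l T :=
    (cont_err h.cα h.cκ).comp (Continuous.prodMk continuous_id continuous_const)
  have h1 := intervalIntegral.integral_eq_sub_of_hasDerivAt (a := (0:ℝ)) (b := 1)
    (fun l _ => h.deriv_prim (T := T) l T) ((b1.add b5).intervalIntegrable _ _)
  rw [← h1, ← Real.norm_eq_abs]
  refine intervalIntegral.norm_integral_le_of_norm_le (by norm_num) ?_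
    (((b1.abs.add b2.abs).add b4).intervalIntegrable _ _)
  refine Filter.Eventually.of_forall fun l _ => ?_
  rw [Real.norm_eq_abs]
  have := abs_err_le (T := T) (α := α) h.cκ (l := l) (t := T) (by linarith) le_rfl
  calc |α l T + err T α κ l T| ≤ |α l T| + |err T α κ l T| := abs_add_le _ _
    _ ≤ _ := by linarith

end TwoDim

end Vale.Agent.P134.H355
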