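import Vale.Agent.P134.H355.Amb

/-!
# P134, block M4-B1: averaged Chen inequality
-/

open MeasureTheory Set

namespace Vale.Agent.P134.H355

section Core

variable {E : Type*} [NormedAddCommGroup E] [NormedSpace ℝ E] {G f h : E → ℝ}
variable {d : ℕ} {Z Zp Zm : Set (Fin d → ℝ)}
variable {mf mh k : E → ℝ} {b : E} {ι : (Fin d → ℝ) →L[ℝ] E} {T Lc : ℝ}

/-- line integral of the density between `s` and `t` -/
noncomputable def lint (G f : E → ℝ) (ι : (Fin d → ℝ) →L[ℝ] E) (b : E) (s t : ℝ)
    (z : Fin d → ℝ) : ℝ := ∫ r in s..t, den G f b (ι z + r • b)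

lemma continuous_lint (hG : ContDiff ℝ 2 G) (hf : ContDiff ℝ 1 f) (s t : ℝ) :
    Continuous (lint G f ι b s t) := by
  have := continuous_den hG hf b
  exact intervalIntegral.continuous_parametric_intervalIntegral_of_continuous'
    (f := fun (z : Fin d → ℝ) (r : ℝ) => den G f b (ι z + r • b)) (by fun_prop) _ _

lemma massP_eq (z : Fin d → ℝ) : massP T G f ι b z = lint G f ι b (-T) T z := rfl

/-- wrong side mass for `f` before `h` -/
noncomputable def Sp (T : ℝ) (G f h : E → ℝ) (ι : (Fin d → ℝ) →L[ℝ] E) (b : E)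
    (z : Fin d → ℝ) : ℝ := lint G f ι b 0 T z + lint G h ι b (-T) 0 z

/-- wrong side mass for `h` before `f` -/
noncomputable def Sm (T : ℝ) (G f h : E → ℝ) (ι : (Fin d → ℝ) →L[ℝ] E) (b : E)
    (z : Fin d → ℝ) : ℝ := lint G f ι b (-T) 0 z + lint G h ι b 0 T z

lemma Dat.cdf (D : Dat G f h mf mh k b) (z : Fin d → ℝ) :
    Continuous fun t : ℝ => den G f b (ι z + t • b) := by
  have := continuous_den D.cG D.cf b
  fun_prop

lemma Dat.pointwise (D : Dat G f h mf mh k b) (hT : 0 ≤ T) (z z' : Fin d → ℝ) :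
    Real.arctan (massP T G f ι b z) * Real.arctan (massP T G h ι b z)
      ≤ 2 * Sp T G f h ι b z + 2 * Sm T G f h ι b z'
        + 4 * (‖ι (z - z')‖ * segM (KK T mf mh k ι b) z z') := by
  have h1 := chenJ_lower hT (D.cdf (ι := ι) z) (D.swap.cdf (ι := ι) z) (fun t => D.f0 _)
    (fun t => D.h0 _)
  have h2 := chenJ_upper hT (D.cdf (ι := ι) z') (D.swap.cdf (ι := ι) z') (fun t => D.f0 _)
    (fun t => D.h0 _)
  have h3 := D.chen_diff (ι := ι) hT z z'
  have h4 := (abs_le.mp h3).2
  unfold chenZ at h4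
  unfold massP Sp Sm lint
  linarith

lemma arctan_lip (x y : ℝ) : Real.arctan x ≤ Real.arctan y + |x - y| := by
  rcases le_total x y with h | h
  · have := Real.arctan_strictMono.monotone h
    have := abs_nonneg (x - y)
    linarith
  · have := arctan_sub_le h
    have := le_abs_self (x - y)
    linarith

lemma arctan_mul_le {p q p' q' : ℝ} (hp : 0 ≤ p) (hq : 0 ≤ q) (hp' : 0 ≤ p') (hq' : 0 ≤ q') :
    Real.arctan p * Real.arctan q ≤ Real.arctan p' * Real.arctan q' + 2 * |p - p'|
      + 2 * |q - q'| := by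
  have a1 := arctan_lip p p'
  have a2 := arctan_lip q q'
  have b1 := arctan_nonneg' hp
  have b2 := arctan_nonneg' hq
  have b3 := arctan_nonneg' hp'
  have b4 := arctan_nonneg' hq'
  have c1 := arctan_le_two p
  have c2 := arctan_le_two q
  have c3 := arctan_le_two p'
  have c4 := arctan_le_two q'
  have d1 := abs_nonneg (p - p')
  have d2 := abs_nonneg (q - q')
  calc Real.arctan p * Real.arctan q ≤ (Real.arctan p' + |p - p'|) * Real.arctan q :=
        mul_le_mul_of_nonneg_right a1 b2
    _ = Real.arctan p' * Real.arctan q + |p - p'| * Real.arctan q := by ring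
    _ ≤ Real.arctan p' * (Real.arctan q' + |q - q'|) + |p - p'| * 2 := by
        gcongr
    _ ≤ _ := by nlinarith

/-- mean value of the mass -/
noncomputable def avg (Z : Set (Fin d → ℝ)) (P : (Fin d → ℝ) → ℝ) : ℝ :=
  (volume Z).toReal⁻¹ * ∫ z in Z, P z

lemma sub_avg_le {P : (Fin d → ℝ) → ℝ} (hP : Continuous P) (hc : IsCompact Z)
    (hv : 0 < (volume Z).toReal) (z : Fin d → ℝ) :
    |P z - avg Z P| ≤ (volume Z).toReal⁻¹ * ∫ z' in Z, |P z - P z'| := by
  have hi : IntegrableOn P Z := hP.continuousOn.integrableOn_compact hc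
  have h1 : P z - avg Z P = (volume Z).toReal⁻¹ * ∫ z' in Z, (P z - P z') := by
    have hcst : IntegrableOn (fun _ : Fin d → ℝ => P z) Z :=
      continuousOn_const.integrableOn_compact hc
    rw [integral_sub hcst hi, setIntegral_const]
    unfold avg
    simp only [Measure.real, smul_eq_mul]
    field_simp
  rw [h1, abs_mul, abs_of_pos (inv_pos.mpr hv)]
  exact mul_le_mul_of_nonneg_left (abs_integral_le_integral_abs) (inv_pos.mpr hv).le

lemma integral_four {α : Type*} [MeasurableSpace α] {μ : Measure α} {f1 f2 f3 f4 : α → ℝ}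
    (h1 : Integrable f1 μ) (h2 : Integrable f2 μ) (h3 : Integrable f3 μ) (h4 : Integrable f4 μ) :
    ∫ x, (f1 x + f2 x + f3 x + f4 x) ∂μ
      = (∫ x, f1 x ∂μ) + (∫ x, f2 x ∂μ) + (∫ x, f3 x ∂μ) + ∫ x, f4 x ∂μ := by
  have e1 : ∫ x, (f1 x + f2 x + f3 x + f4 x) ∂μ = (∫ x, (f1 x + f2 x + f3 x) ∂μ) + ∫ x, f4 x ∂μ :=
    integral_add ((h1.add h2).add h3) h4
  have e2 : ∫ x, (f1 x + f2 x + f3 x) ∂μ = (∫ x, (f1 x + f2 x) ∂μ) + ∫ x, f3 x ∂μ :=
    integral_add (h1.add h2) h3
  rw [e1, e2, integral_add h1 h2]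

/-- **Averaged Chen inequality.** -/
theorem Dat.averaged (D : Dat G f h mf mh k b) (hT : 0 ≤ T) (hZ : Convex ℝ Z)
    (hc : IsCompact Z) (hcp : IsCompact Zp) (hcm : IsCompact Zm) (hp : Zp ⊆ Z) (hm : Zm ⊆ Z)
    (hv : 0 < (volume Z).toReal) (hL0 : 0 ≤ Lc) (hL : ∀ z ∈ Z, ∀ z' ∈ Z, ‖ι (z - z')‖ ≤ Lc) :
    (volume Zp).toReal * (volume Zm).toReal *
      (Real.arctan (avg Z (massP T G f ι b)) * Real.arctan (avg Z (massP T G h ι b)))
      ≤ 2 * (volume Zm).toReal * (∫ z in Zp, Sp T G f h ι b z)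
        + 2 * (volume Zp).toReal * (∫ z in Zm, Sm T G f h ι b z)
        + 8 * Lc * 2 ^ d * (volume Z).toReal * ∫ z in Z, KK T mf mh k ι b z := by
  have hmZ := hc.measurableSet
  have hmp := hcp.measurableSet
  have hmm := hcm.measurableSet
  set K := KK T mf mh k ι b with hK
  have hKc : Continuous K := D.continuous_KK
  have hK0 : ∀ x, 0 ≤ K x := fun x => D.KK_nonneg hT x
  set P := massP T G f ι b with hP
  set Q := massP T G h ι b with hQ
  have hPc : Continuous P := continuous_lint D.cG D.cf (-T) T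
  have hQc : Continuous Q := continuous_lint D.cG D.ch (-T) T
  have hP0 : ∀ z, 0 ≤ P z := fun z => prim_nonneg (fun t => D.f0 _) (by linarith)
  have hQ0 : ∀ z, 0 ≤ Q z := fun z => prim_nonneg (fun t => D.h0 _) (by linarith)
  have hPa : 0 ≤ avg Z P := mul_nonneg (inv_pos.mpr hv).le (setIntegral_nonneg hmZ fun z _ => hP0 z)
  have hQa : 0 ≤ avg Z Q := mul_nonneg (inv_pos.mpr hv).le (setIntegral_nonneg hmZ fun z _ => hQ0 z)
  have hSc := continuous_segM hKc
  have hS0 := segM_nonneg hK0
  -- inner integrals over Z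
  set R : (Fin d → ℝ) → ℝ := fun z => ∫ z' in Z, segM K z z' with hR
  have hRc : Continuous R := continuous_parametric_integral_of_continuous hSc hc
  have hR0 : ∀ z, 0 ≤ R z := fun z => setIntegral_nonneg hmZ fun z' _ => hS0 z z'
  have dP : ∀ z ∈ Z, |P z - avg Z P| ≤ (volume Z).toReal⁻¹ * (Lc * R z) := by
    intro z hz
    refine (sub_avg_le hPc hc hv z).trans (mul_le_mul_of_nonneg_left ?_ (inv_pos.mpr hv).le)
    rw [hR, ← integral_const_mul]
    apply setIntegral_mono_on _ _ hmZ
    · intro z' hz'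
      refine (D.mass_diff (ι := ι) hT z z').trans ?_
      exact mul_le_mul_of_nonneg_right (hL z hz z' hz') (hS0 z z')
    · exact (continuous_const.sub hPc).abs.continuousOn.integrableOn_compact hc
    · exact (continuous_const.mul (hSc.comp
        (Continuous.prodMk continuous_const continuous_id))).continuousOn.integrableOn_compact hc
  have dQ : ∀ z ∈ Z, |Q z - avg Z Q| ≤ (volume Z).toReal⁻¹ * (Lc * R z) := by
    intro z hz
    refine (sub_avg_le hQc hc hv z).trans (mul_le_mul_of_nonneg_left ?_ (inv_pos.mpr hv).le)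
    rw [hR, ← integral_const_mul]
    apply setIntegral_mono_on _ _ hmZ
    · intro z' hz'
      have h1 := D.swap.mass_diff (ι := ι) hT z z'
      have e : KK T mh mf k ι b = KK T mf mh k ι b := by
        ext z; unfold KK; ring
      rw [e] at h1
      refine h1.trans ?_
      exact mul_le_mul_of_nonneg_right (hL z hz z' hz') (hS0 z z')
    · exact (continuous_const.sub hQc).abs.continuousOn.integrableOn_compact hc
    · exact (continuous_const.mul (hSc.comp
        (Continuous.prodMk continuous_const continuous_id))).continuousOn.integrableOn_compact hc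
  set W := Real.arctan (avg Z P) * Real.arctan (avg Z Q) with hW
  set vz := (volume Z).toReal with hvz
  -- pointwise
  have hpt : ∀ z ∈ Zp, ∀ z' ∈ Zm, W ≤ 2 * Sp T G f h ι b z + 2 * Sm T G f h ι b z'
      + 4 * (Lc * segM K z z') + 4 * (vz⁻¹ * (Lc * R z)) := by
    intro z hz z' hz'
    have h1 := D.pointwise (ι := ι) hT z z'
    have h2 := arctan_mul_le hPa hQa (hP0 z) (hQ0 z)
    have h3 := dP z (hp hz)
    have h4 := dQ z (hp hz)
    rw [abs_sub_comm] at h3 h4
    have h5 := mul_le_mul_of_nonneg_right (hL z (hp hz) z' (hm hz')) (hS0 z z')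
    linarith
  have cSp : Continuous (Sp T G f h ι b) :=
    (continuous_lint D.cG D.cf 0 T).add (continuous_lint D.cG D.ch (-T) 0)
  have cSm : Continuous (Sm T G f h ι b) :=
    (continuous_lint D.cG D.cf (-T) 0).add (continuous_lint D.cG D.ch 0 T)
  -- integrate over Zm
  set M : (Fin d → ℝ) → ℝ := fun z => ∫ z' in Zm, segM K z z' with hM
  have hMc : Continuous M := continuous_parametric_integral_of_continuous hSc hcm
  set vm := (volume Zm).toReal with hvm
  set vp := (volume Zp).toReal with hvp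
  set Im := ∫ z in Zm, Sm T G f h ι b z with hIm
  have hin : ∀ z ∈ Zp, vm * W ≤ vm * (2 * Sp T G f h ι b z) + 2 * Im + 4 * (Lc * M z)
      + vm * (4 * (vz⁻¹ * (Lc * R z))) := by
    intro z hz
    have i1 : IntegrableOn (fun z' => 2 * Sm T G f h ι b z') Zm :=
      (continuous_const.mul cSm).continuousOn.integrableOn_compact hcm
    have i2 : IntegrableOn (fun z' => 4 * (Lc * segM K z z')) Zm :=
      (continuous_const.mul (continuous_const.mul (hSc.comp
        (Continuous.prodMk continuous_const continuous_id)))).continuousOn.integrableOn_compact hcm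
    have i0 : IntegrableOn (fun _ : Fin d → ℝ => 2 * Sp T G f h ι b z) Zm :=
      continuousOn_const.integrableOn_compact hcm
    have i3 : IntegrableOn (fun _ : Fin d → ℝ => 4 * (vz⁻¹ * (Lc * R z))) Zm :=
      continuousOn_const.integrableOn_compact hcm
    have i4 : IntegrableOn (fun _ : Fin d → ℝ => W) Zm :=
      continuousOn_const.integrableOn_compact hcm
    have h1 : ∫ _z' in Zm, W ≤ ∫ z' in Zm, (2 * Sp T G f h ι b z + 2 * Sm T G f h ι b z'
      + 4 * (Lc * segM K z z') + 4 * (vz⁻¹ * (Lc * R z))) := by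
      apply setIntegral_mono_on i4 (((i0.add i1).add i2).add i3) hmm
      intro z' hz'
      exact hpt z hz z' hz'
    rw [integral_four i0 i1 i2 i3] at h1
    simp only [setIntegral_const, integral_const_mul, Measure.real, smul_eq_mul] at h1
    simp only [hM, hIm, hvm]
    linarith
  -- integrate over Zp
  have j1 : IntegrableOn (fun z => vm * (2 * Sp T G f h ι b z)) Zp :=
    (continuous_const.mul (continuous_const.mul cSp)).continuousOn.integrableOn_compact hcp
  have j2 : IntegrableOn (fun _ : Fin d → ℝ => 2 * Im) Zp :=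
    continuousOn_const.integrableOn_compact hcp
  have j3 : IntegrableOn (fun z => 4 * (Lc * M z)) Zp :=
    (continuous_const.mul (continuous_const.mul hMc)).continuousOn.integrableOn_compact hcp
  have j4 : IntegrableOn (fun z => vm * (4 * (vz⁻¹ * (Lc * R z)))) Zp :=
    (continuous_const.mul (continuous_const.mul (continuous_const.mul
      (continuous_const.mul hRc)))).continuousOn.integrableOn_compact hcp
  have j0 : IntegrableOn (fun _ : Fin d → ℝ => vm * W) Zp :=
    continuousOn_const.integrableOn_compact hcp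
  have hout : ∫ _z in Zp, vm * W ≤ ∫ z in Zp, (vm * (2 * Sp T G f h ι b z) + 2 * Im
      + 4 * (Lc * M z) + vm * (4 * (vz⁻¹ * (Lc * R z)))) := by
    apply setIntegral_mono_on j0 (((j1.add j2).add j3).add j4) hmp
    intro z hz
    exact hin z hz
  rw [integral_four j1 j2 j3 j4] at hout
  simp only [setIntegral_const, integral_const_mul, Measure.real, smul_eq_mul] at hout
  -- the double integrals of segM
  set A := ∫ z in Z, R z with hA
  have hAle : A ≤ 2 ^ d * vz * ∫ w in Z, K w := seg_avg hZ hc hKc hK0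
  have hRp : ∫ z in Zp, R z ≤ A :=
    setIntegral_mono_set (hRc.continuousOn.integrableOn_compact hc)
      (Filter.Eventually.of_forall fun z => hR0 z) (Filter.Eventually.of_forall hp)
  have hMR : ∀ z, M z ≤ R z := by
    intro z
    exact setIntegral_mono_set ((hSc.comp
        (Continuous.prodMk continuous_const continuous_id)).continuousOn.integrableOn_compact hc)
      (Filter.Eventually.of_forall fun z' => hS0 z z') (Filter.Eventually.of_forall hm)
  have hMp : ∫ z in Zp, M z ≤ A := by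
    refine (setIntegral_mono_on (hMc.continuousOn.integrableOn_compact hcp)
      (hRc.continuousOn.integrableOn_compact hcp) hmp fun z _ => hMR z).trans hRp
  have hvm1 : vm ≤ vz := by
    apply ENNReal.toReal_mono hc.measure_ne_top (measure_mono hm)
  have hvm0 : 0 ≤ vm := ENNReal.toReal_nonneg
  have hA0 : 0 ≤ A := setIntegral_nonneg hmZ fun z _ => hR0 z
  have f1 : vm * (4 * (vz⁻¹ * (Lc * ∫ z in Zp, R z))) ≤ 4 * (Lc * A) := by
    have g1 : vm * vz⁻¹ ≤ 1 := by
      rw [← div_eq_mul_inv, div_le_one hv]; exact hvm1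
    have g2 : Lc * ∫ z in Zp, R z ≤ Lc * A := mul_le_mul_of_nonneg_left hRp hL0
    have g3 : 0 ≤ Lc * A := mul_nonneg hL0 hA0
    have g4 : 0 ≤ vm * vz⁻¹ := mul_nonneg hvm0 (inv_pos.mpr hv).le
    calc vm * (4 * (vz⁻¹ * (Lc * ∫ z in Zp, R z)))
        = 4 * ((vm * vz⁻¹) * (Lc * ∫ z in Zp, R z)) := by ring
      _ ≤ 4 * ((vm * vz⁻¹) * (Lc * A)) := by
          apply mul_le_mul_of_nonneg_left _ (by norm_num)
          exact mul_le_mul_of_nonneg_left g2 g4
      _ ≤ 4 * (1 * (Lc * A)) := by
          apply mul_le_mul_of_nonneg_left _ (by norm_num)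
          exact mul_le_mul_of_nonneg_right g1 g3
      _ = 4 * (Lc * A) := by ring
  have f2 : 4 * (Lc * ∫ z in Zp, M z) ≤ 4 * (Lc * A) := by
    apply mul_le_mul_of_nonneg_left _ (by norm_num)
    exact mul_le_mul_of_nonneg_left hMp hL0
  have f3 : Lc * A ≤ Lc * (2 ^ d * vz * ∫ w in Z, K w) := mul_le_mul_of_nonneg_left hAle hL0
  rw [← hvp] at hout
  have g5 : 8 * Lc * 2 ^ d * vz * (∫ z in Z, K z) = 8 * (Lc * (2 ^ d * vz * ∫ w in Z, K w)) := by
    ring
  rw [g5]
  have g6 : vp * vm * W = vm * (vp * W) := by ring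
  rw [g6]
  linarith

end Core

end Vale.Agent.P134.H355
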