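import Vale.Agent.P134.H355.Core

/-!
# P134, block M4-B1: change of variables to coordinates of an orthonormal basis
-/

open MeasureTheory Set

namespace Vale.Agent.P134.H355

section Cov

variable {d : ℕ}

/-- Euclidean space of dimension `d + 1`. -/
abbrev EE (d : ℕ) := EuclideanSpace ℝ (Fin (d + 1))

/-- transversal coordinates -/
noncomputable def iot (B : OrthonormalBasis (Fin (d + 1)) ℝ (EE d)) : (Fin d → ℝ) →L[ℝ] EE d :=
  ∑ j : Fin d, (ContinuousLinearMap.proj (R := ℝ) (φ := fun _ : Fin d => ℝ) j).smulRight (B j.succ)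

lemma iot_apply (B : OrthonormalBasis (Fin (d + 1)) ℝ (EE d)) (z : Fin d → ℝ) :
    iot B z = ∑ j : Fin d, z j • B j.succ := by
  simp [iot]

/-- the coordinate map -/
noncomputable def emap (B : OrthonormalBasis (Fin (d + 1)) ℝ (EE d)) :
    (ℝ × (Fin d → ℝ)) ≃ᵐ EE d :=
  (MeasurableEquiv.piFinSuccAbove (fun _ : Fin (d + 1) => ℝ) 0).symm.trans
    ((MeasurableEquiv.toLp 2 (Fin (d + 1) → ℝ)).trans B.measurableEquiv.symm)

lemma emap_apply (B : OrthonormalBasis (Fin (d + 1)) ℝ (EE d)) (t : ℝ) (z : Fin d → ℝ) :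
    emap B (t, z) = iot B z + t • B 0 := by
  have h : emap B (t, z) = B.repr.symm (WithLp.toLp 2 (Fin.insertNth 0 t z)) := rfl
  rw [h, ← OrthonormalBasis.sum_repr_symm, Fin.sum_univ_succ, iot_apply]
  simp [add_comm]

lemma emap_preserving (B : OrthonormalBasis (Fin (d + 1)) ℝ (EE d)) :
    MeasurePreserving (emap B) (volume.prod volume) volume := by
  have h1 : MeasurePreserving (MeasurableEquiv.piFinSuccAbove (fun _ : Fin (d + 1) => ℝ) 0).symm
      (volume.prod volume) volume := (volume_preserving_piFinSuccAbove (fun _ => ℝ) 0).symm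
  have h2 : MeasurePreserving (MeasurableEquiv.toLp 2 (Fin (d + 1) → ℝ)) volume volume :=
    PiLp.volume_preserving_toLp (Fin (d + 1))
  have h3 : MeasurePreserving B.measurableEquiv.symm volume volume :=
    B.measurePreserving_repr_symm
  exact (h3.comp h2).comp h1

lemma continuous_emap (B : OrthonormalBasis (Fin (d + 1)) ℝ (EE d)) : Continuous (emap B) := by
  have : (emap B : ℝ × (Fin d → ℝ) → EE d) = fun p => iot B p.2 + p.1 • B 0 := by
    ext1 p
    exact emap_apply B p.1 p.2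
  rw [this]
  fun_prop

lemma cov_eq (B : OrthonormalBasis (Fin (d + 1)) ℝ (EE d)) {g : EE d → ℝ} (hg : Continuous g)
    {Z : Set (Fin d → ℝ)} (hZ : IsCompact Z) {s t : ℝ} (hst : s ≤ t) :
    ∫ z in Z, ∫ r in s..t, g (iot B z + r • B 0)
      = ∫ p in (Icc s t) ×ˢ Z, g (emap B p) ∂(volume.prod volume) := by
  have hc : Continuous (fun p : ℝ × (Fin d → ℝ) => g (emap B p)) := hg.comp (continuous_emap B)
  rw [setIntegral_prod _ (hc.continuousOn.integrableOn_compact (isCompact_Icc.prod hZ))]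
  rw [swap_interval (f := fun z r => g (iot B z + r • B 0)) (by fun_prop) hZ hst,
    intervalIntegral.integral_of_le hst, ← integral_Icc_eq_integral_Ioc]
  simp only [emap_apply]

lemma preimage_integral (B : OrthonormalBasis (Fin (d + 1)) ℝ (EE d)) (g : EE d → ℝ)
    (S : Set (EE d)) :
    ∫ p in (emap B) ⁻¹' S, g (emap B p) ∂(volume.prod volume) = ∫ x in S, g x :=
  (emap_preserving B).setIntegral_preimage_emb (emap B).measurableEmbedding g S

lemma cov_le (B : OrthonormalBasis (Fin (d + 1)) ℝ (EE d)) {g : EE d → ℝ} (hg : Continuous g)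
    (hg0 : ∀ x, 0 ≤ g x) {Z : Set (Fin d → ℝ)} (hZ : IsCompact Z) {s t : ℝ} (hst : s ≤ t)
    {S : Set (EE d)} (hS : IsCompact S)
    (hsub : ∀ z ∈ Z, ∀ r ∈ Icc s t, iot B z + r • B 0 ∈ S) :
    ∫ z in Z, ∫ r in s..t, g (iot B z + r • B 0) ≤ ∫ x in S, g x := by
  rw [cov_eq B hg hZ hst, ← preimage_integral B g S]
  apply setIntegral_mono_set
  · exact ((emap_preserving B).integrableOn_comp_preimage (emap B).measurableEmbedding (f := g)
      (s := S)).2 (hg.continuousOn.integrableOn_compact hS)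
  · exact Filter.Eventually.of_forall fun p => hg0 _
  · apply Filter.Eventually.of_forall
    rintro ⟨r, z⟩ ⟨h1, h2⟩
    have := hsub z h2 r h1
    rw [← emap_apply] at this
    exact this

lemma cov_ge (B : OrthonormalBasis (Fin (d + 1)) ℝ (EE d)) {g : EE d → ℝ} (hg : Continuous g)
    (hg0 : ∀ x, 0 ≤ g x) {Z : Set (Fin d → ℝ)} (hZ : IsCompact Z) {s t : ℝ} (hst : s ≤ t)
    {S : Set (EE d)}
    (hsub : ∀ z r, iot B z + r • B 0 ∈ S → z ∈ Z ∧ r ∈ Icc s t) :
    ∫ x in S, g x ≤ ∫ z in Z, ∫ r in s..t, g (iot B z + r • B 0) := by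
  rw [cov_eq B hg hZ hst, ← preimage_integral B g S]
  have hc : Continuous (fun p : ℝ × (Fin d → ℝ) => g (emap B p)) := hg.comp (continuous_emap B)
  apply setIntegral_mono_set
  · exact hc.continuousOn.integrableOn_compact (isCompact_Icc.prod hZ)
  · exact Filter.Eventually.of_forall fun p => hg0 _
  · apply Filter.Eventually.of_forall
    rintro ⟨r, z⟩ h1
    have h2 : emap B (r, z) ∈ S := h1
    rw [emap_apply] at h2
    have := hsub z r h2
    exact ⟨this.2, this.1⟩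

lemma inner_pt_zero (B : OrthonormalBasis (Fin (d + 1)) ℝ (EE d)) (z : Fin d → ℝ) (t : ℝ) :
    inner ℝ (iot B z + t • B 0) (B 0) = t := by
  rw [iot_apply, inner_add_left, sum_inner, inner_smul_left]
  have : ∀ j : Fin d, inner ℝ (z j • B j.succ) (B 0) = 0 := by
    intro j
    rw [inner_smul_left, B.orthonormal.2 (Fin.succ_ne_zero j)]
    simp
  simp [this, B.orthonormal.1]

lemma inner_pt_succ (B : OrthonormalBasis (Fin (d + 1)) ℝ (EE d)) (z : Fin d → ℝ) (t : ℝ)
    (j : Fin d) : inner ℝ (iot B z + t • B 0) (B j.succ) = z j := by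
  rw [iot_apply, inner_add_left, sum_inner, inner_smul_left,
    B.orthonormal.2 (Fin.succ_ne_zero j).symm]
  have : ∀ i : Fin d, inner ℝ (z i • B i.succ) (B j.succ) = if i = j then z j else 0 := by
    intro i
    rw [inner_smul_left]
    by_cases hij : i = j
    · subst hij; simp [B.orthonormal.1]
    · rw [B.orthonormal.2 (by simpa using hij)]; simp [hij]
  simp [this]

lemma norm_iot_le (B : OrthonormalBasis (Fin (d + 1)) ℝ (EE d)) {z : Fin d → ℝ} {c : ℝ}
    (hz : ∀ j, |z j| ≤ c) : ‖iot B z‖ ≤ d * c := by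
  rw [iot_apply]
  calc ‖∑ j, z j • B j.succ‖ ≤ ∑ j : Fin d, ‖z j • B j.succ‖ := norm_sum_le _ _
    _ ≤ ∑ _j : Fin d, c := by
        apply Finset.sum_le_sum
        intro j _
        rw [norm_smul, B.orthonormal.1, mul_one]
        exact hz j
    _ = d * c := by simp

lemma norm_pt_le (B : OrthonormalBasis (Fin (d + 1)) ℝ (EE d)) {z : Fin d → ℝ} {c t : ℝ}
    (hz : ∀ j, |z j| ≤ c) : ‖iot B z + t • B 0‖ ≤ d * c + |t| := by
  have h1 := norm_iot_le B hz
  have h2 : ‖t • B 0‖ = |t| := by rw [norm_smul, B.orthonormal.1, mul_one]; rfl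
  linarith [norm_add_le (iot B z) (t • B 0)]

lemma mem_of_norm_le (B : OrthonormalBasis (Fin (d + 1)) ℝ (EE d)) {z : Fin d → ℝ} {c t : ℝ}
    (h : ‖iot B z + t • B 0‖ ≤ c) : (∀ j, |z j| ≤ c) ∧ |t| ≤ c := by
  constructor
  · intro j
    have h1 := abs_real_inner_le_norm (iot B z + t • B 0) (B j.succ)
    rw [inner_pt_succ, B.orthonormal.1, mul_one] at h1
    exact h1.trans h
  · have h1 := abs_real_inner_le_norm (iot B z + t • B 0) (B 0)
    rw [inner_pt_zero, B.orthonormal.1, mul_one] at h1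
    exact h1.trans h

/-- the frame of two nonparallel unit vectors -/
lemma exists_frame {m : ℕ} {ν₁ ν₂ : EE (m + 1)} (h1 : ‖ν₁‖ = 1) (h2 : ‖ν₂‖ = 1) {σ : ℝ}
    (hσ : 0 < σ) (h : |inner ℝ ν₁ ν₂| ≤ 1 - 2 * σ ^ 2) :
    ∃ (B : OrthonormalBasis (Fin (m + 2)) ℝ (EE (m + 1))) (c s : ℝ), σ ≤ c ∧ σ ≤ s ∧ c ≤ 1 ∧
      s ≤ 1 ∧ ν₁ = c • B 0 + s • B (Fin.succ 0) ∧ ν₂ = c • B 0 - s • B (Fin.succ 0) := by
  obtain ⟨ha, hb⟩ := abs_le.mp h
  have e1 : ‖ν₁ + ν₂‖ ^ 2 = 2 + 2 * inner ℝ ν₁ ν₂ := by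
    rw [norm_add_sq_real, h1, h2]; ring
  have e2 : ‖ν₁ - ν₂‖ ^ 2 = 2 - 2 * inner ℝ ν₁ ν₂ := by
    rw [norm_sub_sq_real, h1, h2]; ring
  have p1 : 0 < ‖ν₁ + ν₂‖ := by
    apply lt_of_le_of_ne (norm_nonneg _)
    intro h0
    rw [← h0] at e1
    nlinarith
  have p2 : 0 < ‖ν₁ - ν₂‖ := by
    apply lt_of_le_of_ne (norm_nonneg _)
    intro h0
    rw [← h0] at e2
    nlinarith
  set c := ‖ν₁ + ν₂‖ / 2 with hc
  set s := ‖ν₁ - ν₂‖ / 2 with hs
  set b : EE (m + 1) := (‖ν₁ + ν₂‖)⁻¹ • (ν₁ + ν₂) with hb'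
  set a : EE (m + 1) := (‖ν₁ - ν₂‖)⁻¹ • (ν₁ - ν₂) with ha'
  have nb : ‖b‖ = 1 := by
    rw [hb', norm_smul, norm_inv, norm_norm, inv_mul_cancel₀ p1.ne']
  have na : ‖a‖ = 1 := by
    rw [ha', norm_smul, norm_inv, norm_norm, inv_mul_cancel₀ p2.ne']
  have hab : inner ℝ b a = 0 := by
    rw [hb', ha', inner_smul_left, inner_smul_right, inner_add_left, inner_sub_right,
      inner_sub_right, real_inner_comm ν₁ ν₂, real_inner_self_eq_norm_sq,
      real_inner_self_eq_norm_sq, h1, h2]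
    simp
  have hcard : Module.finrank ℝ (EE (m + 1)) = Fintype.card (Fin (m + 2)) := by simp
  set v : Fin (m + 2) → EE (m + 1) := fun i => if i = 0 then b else a with hv
  have hon : Orthonormal ℝ (({0, Fin.succ 0} : Set (Fin (m + 2))).domRestrict v) := by
    constructor
    · rintro ⟨i, hi⟩
      simp only [Set.domRestrict_apply, hv]
      split_ifs <;> assumption
    · rintro ⟨i, hi⟩ ⟨j, hj⟩ hij
      simp only [Set.domRestrict_apply, hv]
      have hij' : i ≠ j := fun h => hij (Subtype.ext h)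
      rcases hi with rfl | hi
      · rcases hj with rfl | hj
        · exact absurd rfl hij'
        · have : j ≠ 0 := by rw [hj]; exact Fin.succ_ne_zero 0
          simp [this, hab]
      · have hi0 : i ≠ 0 := by rw [hi]; exact Fin.succ_ne_zero 0
        rcases hj with rfl | hj
        · simp [hi0, real_inner_comm, hab]
        · exact absurd (hi.trans hj.symm) hij'
  obtain ⟨B, hB⟩ := hon.exists_orthonormalBasis_extension_of_card_eq hcard
  have B0 : B 0 = b := by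
    rw [hB 0 (by simp)]; simp [hv]
  have B1 : B (Fin.succ 0) = a := by
    rw [hB (Fin.succ 0) (by simp)]
    simp [hv]
  refine ⟨B, c, s, ?_, ?_, ?_, ?_, ?_, ?_⟩
  · nlinarith
  · nlinarith
  · have : ‖ν₁ + ν₂‖ ≤ 2 := by linarith [norm_add_le ν₁ ν₂]
    linarith
  · have : ‖ν₁ - ν₂‖ ≤ 2 := by linarith [norm_sub_le ν₁ ν₂]
    linarith
  · rw [B0, B1, hb', ha', smul_smul, smul_smul]
    have q1 : c * (‖ν₁ + ν₂‖)⁻¹ = 1 / 2 := by rw [hc]; field_simp
    have q2 : s * (‖ν₁ - ν₂‖)⁻¹ = 1 / 2 := by rw [hs]; field_simp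
    rw [q1, q2]
    module
  · rw [B0, B1, hb', ha', smul_smul, smul_smul]
    have q1 : c * (‖ν₁ + ν₂‖)⁻¹ = 1 / 2 := by rw [hc]; field_simp
    have q2 : s * (‖ν₁ - ν₂‖)⁻¹ = 1 / 2 := by rw [hs]; field_simp
    rw [q1, q2]
    module

end Cov

end Vale.Agent.P134.H355
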