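import Vale.Agent.P134.H355.CapPair

/-!
# P134, block M4-B1/B2: unoriented flatness
-/

open MeasureTheory Set Metric

namespace Vale.Agent.P134.H355

section Flat

theorem chen_flat (m : ℕ) {θ M : ℝ} (hθ : 0 < θ) (hM : 0 ≤ M) :
    ∃ C ε : ℝ, 1 ≤ C ∧ 0 < ε ∧
      ∀ {G μ : EE (m + 1) → ℝ} {ν : EE (m + 1) → EE (m + 1)} (F : Fld G μ ν),
        ∫ x in closedBall (0 : EE (m + 1)) 1, μ x ≤ M →
        ∫ x in closedBall (0 : EE (m + 1)) C, μ x * ‖fderiv ℝ ν x‖ ≤ ε →
        ∫ x in closedBall (0 : EE (m + 1)) C, μ x * inner ℝ x (ν x) ^ 2 ≤ ε →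
        ∃ e : EE (m + 1), ‖e‖ = 1 ∧
          ∫ x in closedBall (0 : EE (m + 1)) 1, μ x * (1 - inner ℝ (ν x) e ^ 2) ≤ θ := by
  set σ : ℝ := min 1 (θ / (10 * (M + 1))) with hσdef
  have hσ : 0 < σ := lt_min one_pos (by positivity)
  have hσ1 : σ ≤ 1 := min_le_left _ _
  have hσ2 : 5 * σ * M ≤ θ / 2 := by
    have h1 : σ ≤ θ / (10 * (M + 1)) := min_le_right _ _
    rw [le_div_iff₀ (by positivity)] at h1
    nlinarith
  obtain ⟨r, C, hr, hrσ, hC1, hpair⟩ := cap_pair m hσ hσ1
  -- the net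
  obtain ⟨t, hts, htf, hcov⟩ :=
    (isCompact_sphere (0 : EE (m + 1)) 1).finite_cover_balls (e := r / 2) (by positivity)
  set N := htf.toFinset with hN
  have hNu : ∀ w ∈ N, ‖w‖ = 1 := by
    intro w hw
    rw [hN, Finite.mem_toFinset] at hw
    simpa using hts hw
  have hnet : ∀ v : EE (m + 1), ‖v‖ = 1 → ∃ w ∈ N, capf r (inner ℝ v w) = 1 ∧ ‖v - w‖ ≤ r := by
    intro v hv
    have h1 : v ∈ sphere (0 : EE (m + 1)) 1 := by simpa using hv
    obtain ⟨w, hw, hvw⟩ := mem_iUnion₂.mp (hcov h1)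
    rw [mem_ball, dist_eq_norm] at hvw
    have hwN : w ∈ N := by rw [hN, Finite.mem_toFinset]; exact hw
    refine ⟨w, hwN, ?_, by linarith⟩
    apply capf_eq_one hr
    have h2 : ‖v - w‖ ^ 2 = 2 - 2 * inner ℝ v w := by
      rw [norm_sub_sq_real, hv, hNu w hwN]; ring
    have h3 : ‖v - w‖ ^ 2 ≤ (r / 2) ^ 2 := by
      have := norm_nonneg (v - w)
      gcongr
    nlinarith
  set θ1 : ℝ := θ / (2 * (N.card + 1)) with hθ1
  have hθ1pos : 0 < θ1 := by positivity
  have hcard : (N.card : ℝ) * θ1 ≤ θ / 2 := by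
    have h1 : ((N.card : ℝ) + 1) * θ1 = θ / 2 := by
      rw [hθ1]
      have : ((N.card : ℝ) + 1) ≠ 0 := by positivity
      field_simp
    nlinarith
  obtain ⟨ε, hε, hpair⟩ := hpair θ1 hθ1pos
  refine ⟨C, ε, hC1, hε, ?_⟩
  intro G μ ν F hmass hI hE
  have hball := isCompact_closedBall (0 : EE (m + 1)) 1
  have cμ := F.cμ
  have cν := F.cν.continuous
  have hcint : ∀ w : EE (m + 1), IntegrableOn (fun x => cpx r ν w x * μ x)
      (closedBall (0 : EE (m + 1)) 1) := fun w =>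
    ((F.contDiff_cpx r w).continuous.mul F.cμ).continuousOn.integrableOn_compact hball
  by_cases hall : ∀ w ∈ N, cmass F r w ≤ θ1
  · -- no mass at all
    obtain ⟨e, he⟩ : ∃ e : EE (m + 1), ‖e‖ = 1 := ⟨ν 0, F.nν 0⟩
    refine ⟨e, he, ?_⟩
    have hpt : ∀ x, μ x * (1 - inner ℝ (ν x) e ^ 2) ≤ ∑ w ∈ N, cpx r ν w x * μ x := by
      intro x
      obtain ⟨w, hw, hcw, _⟩ := hnet (ν x) (F.nν x)
      have h1 : cpx r ν w x * μ x ≤ ∑ w ∈ N, cpx r ν w x * μ x :=
        Finset.single_le_sum (f := fun w => cpx r ν w x * μ x)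
          (fun w _ => mul_nonneg (cpx_nonneg _ _ _ _) (F.μ0 x)) hw
      have h2 : cpx r ν w x = 1 := hcw
      rw [h2, one_mul] at h1
      have h3 : μ x * (1 - inner ℝ (ν x) e ^ 2) ≤ μ x := by
        have := mul_nonneg (F.μ0 x) (sq_nonneg (inner ℝ (ν x) e : ℝ))
        linarith
      linarith
    have hc1 : Continuous fun x => μ x * (1 - (inner ℝ (ν x) e : ℝ) ^ 2) :=
      cμ.mul (continuous_const.sub ((cν.inner continuous_const).pow 2))
    calc ∫ x in closedBall (0 : EE (m + 1)) 1, μ x * (1 - inner ℝ (ν x) e ^ 2)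
        ≤ ∫ x in closedBall (0 : EE (m + 1)) 1, ∑ w ∈ N, cpx r ν w x * μ x :=
          setIntegral_mono (hc1.continuousOn.integrableOn_compact hball)
            (integrable_finsetSum _ fun w _ => hcint w) hpt
      _ = ∑ w ∈ N, cmass F r w := integral_finsetSum _ fun w _ => hcint w
      _ ≤ ∑ _w ∈ N, θ1 := Finset.sum_le_sum hall
      _ = N.card * θ1 := by rw [Finset.sum_const, nsmul_eq_mul]
      _ ≤ θ := by linarith
  · push Not at hall
    obtain ⟨e, heN, he⟩ := hall
    refine ⟨e, hNu e heN, ?_⟩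
    classical
    set bad := N.filter (fun w => |inner ℝ e w| ≤ 1 - 2 * σ ^ 2) with hbad
    have hbadm : ∀ w ∈ bad, cmass F r w ≤ θ1 := by
      intro w hw
      rw [hbad, Finset.mem_filter] at hw
      rcases hpair F e w (hNu e heN) (hNu w hw.1) hw.2 hI hE with h | h
      · exact absurd h (not_le.mpr he)
      · exact h
    have hpt : ∀ x, μ x * (1 - inner ℝ (ν x) e ^ 2)
        ≤ 5 * σ * μ x + ∑ w ∈ bad, cpx r ν w x * μ x := by
      intro x
      obtain ⟨w, hw, hcw, hvw⟩ := hnet (ν x) (F.nν x)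
      have hμx := F.μ0 x
      have hs0 : 0 ≤ ∑ w ∈ bad, cpx r ν w x * μ x :=
        Finset.sum_nonneg fun w _ => mul_nonneg (cpx_nonneg _ _ _ _) (F.μ0 x)
      by_cases hb : |inner ℝ e w| ≤ 1 - 2 * σ ^ 2
      · have hwb : w ∈ bad := by rw [hbad, Finset.mem_filter]; exact ⟨hw, hb⟩
        have h1 : cpx r ν w x * μ x ≤ ∑ w ∈ bad, cpx r ν w x * μ x :=
          Finset.single_le_sum (f := fun w => cpx r ν w x * μ x)
            (fun w _ => mul_nonneg (cpx_nonneg _ _ _ _) (F.μ0 x)) hwb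
        have h2 : cpx r ν w x = 1 := hcw
        rw [h2, one_mul] at h1
        have h3 : μ x * (1 - inner ℝ (ν x) e ^ 2) ≤ μ x := by
          have := mul_nonneg hμx (sq_nonneg (inner ℝ (ν x) e : ℝ))
          linarith
        have h4 : 0 ≤ 5 * σ * μ x := by positivity
        linarith
      · rw [not_le] at hb
        have h1 : |inner ℝ (ν x - w) e| ≤ ‖ν x - w‖ * ‖e‖ := abs_real_inner_le_norm _ _
        rw [hNu e heN, mul_one, inner_sub_left] at h1
        have h2 : 1 - 2 * σ ^ 2 - r ≤ |inner ℝ (ν x) e| := by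
          rw [real_inner_comm] at hb
          have := abs_sub_abs_le_abs_sub (inner ℝ w e) (inner ℝ (ν x) e)
          rw [abs_sub_comm] at this
          linarith
        have h3 : |inner ℝ (ν x) e| ≤ 1 := by
          have := abs_real_inner_le_norm (ν x) e
          rwa [F.nν, hNu e heN, mul_one] at this
        have h4 : 1 - inner ℝ (ν x) e ^ 2 ≤ 5 * σ := by
          rw [← sq_abs (inner ℝ (ν x) e)]
          have h5 : 0 ≤ |inner ℝ (ν x) e| := abs_nonneg _
          have h6 : 1 - |inner ℝ (ν x) e| ≤ 2 * σ ^ 2 + r := by linarith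
          have h7 : (1 - |inner ℝ (ν x) e|) * (1 + |inner ℝ (ν x) e|) ≤ (2 * σ ^ 2 + r) * 2 :=
            mul_le_mul h6 (by linarith) (by linarith) (by positivity)
          nlinarith
        have h8 : μ x * (1 - inner ℝ (ν x) e ^ 2) ≤ μ x * (5 * σ) :=
          mul_le_mul_of_nonneg_left h4 hμx
        linarith
    have hc1 : Continuous fun x => μ x * (1 - (inner ℝ (ν x) e : ℝ) ^ 2) :=
      cμ.mul (continuous_const.sub ((cν.inner continuous_const).pow 2))
    have hc2 : IntegrableOn (fun x => 5 * σ * μ x) (closedBall (0 : EE (m + 1)) 1) :=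
      (continuous_const.mul cμ).continuousOn.integrableOn_compact hball
    have hc3 : IntegrableOn (fun x => ∑ w ∈ bad, cpx r ν w x * μ x)
      (closedBall (0 : EE (m + 1)) 1) := integrable_finsetSum _ fun w _ => hcint w
    have hbc : (bad.card : ℝ) ≤ N.card := by
      exact_mod_cast Finset.card_le_card (Finset.filter_subset _ _)
    calc ∫ x in closedBall (0 : EE (m + 1)) 1, μ x * (1 - inner ℝ (ν x) e ^ 2)
        ≤ ∫ x in closedBall (0 : EE (m + 1)) 1, (5 * σ * μ x + ∑ w ∈ bad, cpx r ν w x * μ x) :=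
          setIntegral_mono (hc1.continuousOn.integrableOn_compact hball) (hc2.add hc3) hpt
      _ = 5 * σ * (∫ x in closedBall (0 : EE (m + 1)) 1, μ x) + ∑ w ∈ bad, cmass F r w := by
          rw [integral_add hc2 hc3, integral_const_mul, integral_finsetSum _ fun w _ => hcint w]
          rfl
      _ ≤ 5 * σ * M + ∑ _w ∈ bad, θ1 := by
          apply add_le_add
          · exact mul_le_mul_of_nonneg_left hmass (by positivity)
          · exact Finset.sum_le_sum hbadm
      _ = 5 * σ * M + bad.card * θ1 := by rw [Finset.sum_const, nsmul_eq_mul]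
      _ ≤ 5 * σ * M + N.card * θ1 := by gcongr
      _ ≤ θ := by linarith

end Flat

end Vale.Agent.P134.H355
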