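import Vale.Agent.P134.H355.Scale

/-!
# P134, block M4-B1/B2: flatness for `u`
-/

open MeasureTheory Set Metric Filter Topology

namespace Vale.Agent.P134.H355

open Vale.Agent.P134 Vale.Agent.P134.SM

section FlatU

variable {m : ℕ} {u : (Fin (m + 2) → ℝ) → ℝ}

lemma isCompact_blE (n : ℕ) (R : ℝ) : IsCompact (blE n R) := by
  refine (isCompact_Icc (a := fun _ : Fin n => -(R ^ 2 + 1)) (b := fun _ => R ^ 2 + 1)).of_isClosed_subset
    (isClosed_le (rho_contDiff (k := 0) _).continuous continuous_const) ?_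
  intro x hx
  have hx' : rho Finset.univ x ≤ R ^ 2 := hx
  have h1 : ∀ i, |x i| ≤ R ^ 2 + 1 := by
    intro i
    have h2 := (sq_le_rho (Finset.mem_univ i) x).trans hx'
    have h3 : |x i| ^ 2 ≤ R ^ 2 := by rw [sq_abs]; exact h2
    nlinarith [abs_nonneg (x i)]
  exact ⟨fun i => (abs_le.mp (h1 i)).1, fun i => (abs_le.mp (h1 i)).2⟩

lemma vs_eq (x : Fin (m + 2) → ℝ) : vs u x = ∑ i, nu u i x * x i := by
  unfold vs rd nu
  rw [Finset.sum_div]
  refine Finset.sum_congr rfl fun i _ => ?_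
  ring

lemma tau_eq (e x : Fin (m + 2) → ℝ) : tau e u x = ∑ i, nu u i x * e i := by
  unfold tau dd nu
  rw [Finset.sum_div]
  refine Finset.sum_congr rfl fun i _ => ?_
  ring

lemma dn_continuous (hu : Sol u) (hp : ∀ x, 0 < gs u x) : Continuous (dn u) := by
  unfold dn
  exact continuous_finsetSum _ fun i _ => continuous_finsetSum _ fun j _ =>
    (continuous_pd (nu_contDiff hu hp i)).pow 2

theorem flat_u (hu : Sol u) (hp : ∀ x, 0 < gs u x) {M : ℝ}
    (hM : ∀ᶠ R : ℝ in atTop, ∫ x in blE (m + 2) R, psi u x * wn u x ≤ M * R ^ (m + 1))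
    (hK : ∀ ε : ℝ, 0 < ε → ∀ᶠ R : ℝ in atTop,
      ∫ x in blE (m + 2) R, psi u x * wn u x * √(dn u x) ≤ ε * R ^ m)
    (hS : ∀ ε : ℝ, 0 < ε → ∀ᶠ R : ℝ in atTop,
      ∫ x in blE (m + 2) R, psi u x * wn u x * vs u x ^ 2 ≤ ε * R ^ (m + 3)) :
    ∀ ε : ℝ, 0 < ε → ∀ᶠ R : ℝ in atTop, ∃ e : Fin (m + 2) → ℝ, ∑ i, e i ^ 2 = 1 ∧
      ∫ x in blE (m + 2) R, psi u x * wn u x * (1 - tau e u x ^ 2) ≤ ε * R ^ (m + 1) := by
  intro ε hε
  obtain ⟨C, ε0, hC, hε0, hflat⟩ := chen_flat m hε (le_max_right M 0)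
  have hCpos : 0 < C := by linarith
  have hlim : Tendsto (fun R : ℝ => R * C) atTop atTop := tendsto_id.atTop_mul_const hCpos
  have hK' := hlim.eventually (hK (ε0 / C ^ m) (by positivity))
  have hS' := hlim.eventually (hS (ε0 / C ^ (m + 3)) (by positivity))
  filter_upwards [hM, hK', hS', eventually_gt_atTop (0:ℝ)] with R h1 h2 h3 hR
  have F := fld hu hp hR
  have cpsi := hu.psi_contDiff.continuous
  have cwn := wn_continuous hu
  have cdn := dn_continuous hu hp
  have cof := (ofR m R).continuous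
  have a1 : ∫ y in closedBall (0 : EE (m + 1)) 1, MM u R y ≤ max M 0 := by
    have e1 := integral_scale (fun x => R * (psi u x * wn u x)) hR (zero_le_one (α := ℝ))
    have e2 : ∫ y in closedBall (0 : EE (m + 1)) 1, MM u R y
        = ∫ y in closedBall (0 : EE (m + 1)) 1, (fun x => R * (psi u x * wn u x)) (ofR m R y) := rfl
    rw [e2, e1, mul_one, integral_const_mul]
    calc (R ^ (m + 2))⁻¹ * (R * ∫ x in blE (m + 2) R, psi u x * wn u x)
        ≤ (R ^ (m + 2))⁻¹ * (R * (M * R ^ (m + 1))) := by gcongr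
      _ = M := by field_simp; ring
      _ ≤ max M 0 := le_max_left _ _
  have a2 : ∫ y in closedBall (0 : EE (m + 1)) C, MM u R y * ‖fderiv ℝ (NN u R) y‖ ≤ ε0 := by
    have e1 := integral_scale (fun x => R * (psi u x * wn u x) * (R * √(dn u x))) hR hCpos.le
    have cl : Continuous fun y => MM u R y * ‖fderiv ℝ (NN u R) y‖ :=
      F.cμ.mul (F.cν.continuous_fderiv (by norm_num)).norm
    have cr : Continuous fun y => (fun x => R * (psi u x * wn u x) * (R * √(dn u x))) (ofR m R y) := by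
      have : Continuous fun x => R * (psi u x * wn u x) * (R * √(dn u x)) :=
        (continuous_const.mul (cpsi.mul cwn)).mul (continuous_const.mul cdn.sqrt)
      exact this.comp cof
    have hle : ∫ y in closedBall (0 : EE (m + 1)) C, MM u R y * ‖fderiv ℝ (NN u R) y‖
        ≤ ∫ y in closedBall (0 : EE (m + 1)) C,
          (fun x => R * (psi u x * wn u x) * (R * √(dn u x))) (ofR m R y) := by
      apply setIntegral_mono (cl.continuousOn.integrableOn_compact (isCompact_closedBall _ _))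
        (cr.continuousOn.integrableOn_compact (isCompact_closedBall _ _))
      intro y
      exact mul_le_mul_of_nonneg_left (norm_fderiv_NN hu hp hR y) (F.μ0 y)
    refine hle.trans ?_
    rw [e1]
    have e3 : ∀ x, R * (psi u x * wn u x) * (R * √(dn u x))
        = R ^ 2 * (psi u x * wn u x * √(dn u x)) := fun x => by ring
    simp_rw [e3]
    rw [integral_const_mul]
    calc (R ^ (m + 2))⁻¹ * (R ^ 2 * ∫ x in blE (m + 2) (R * C), psi u x * wn u x * √(dn u x))
        ≤ (R ^ (m + 2))⁻¹ * (R ^ 2 * (ε0 / C ^ m * (R * C) ^ m)) := by gcongr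
      _ = ε0 := by rw [mul_pow]; field_simp; ring
  have a3 : ∫ y in closedBall (0 : EE (m + 1)) C, MM u R y * inner ℝ y (NN u R y) ^ 2 ≤ ε0 := by
    have e1 := integral_scale (fun x => R * (psi u x * wn u x) * (R⁻¹ * vs u x) ^ 2) hR hCpos.le
    have e2 : ∀ y : EE (m + 1), MM u R y * inner ℝ y (NN u R y) ^ 2
        = (fun x => R * (psi u x * wn u x) * (R⁻¹ * vs u x) ^ 2) (ofR m R y) := by
      intro y
      have e4 : inner ℝ y (NN u R y) = R⁻¹ * vs u (ofR m R y) := by
        rw [real_inner_comm, inner_NN, vs_eq, Finset.mul_sum]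
        refine Finset.sum_congr rfl fun i _ => ?_
        rw [ofR_apply]
        field_simp
      rw [e4]
      rfl
    simp_rw [e2]
    rw [e1]
    have e3 : ∀ x, R * (psi u x * wn u x) * (R⁻¹ * vs u x) ^ 2
        = R⁻¹ * (psi u x * wn u x * vs u x ^ 2) := fun x => by field_simp
    simp_rw [e3]
    rw [integral_const_mul]
    calc (R ^ (m + 2))⁻¹ * (R⁻¹ * ∫ x in blE (m + 2) (R * C), psi u x * wn u x * vs u x ^ 2)
        ≤ (R ^ (m + 2))⁻¹ * (R⁻¹ * (ε0 / C ^ (m + 3) * (R * C) ^ (m + 3))) := by gcongr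
      _ = ε0 := by rw [mul_pow]; field_simp; ring
  obtain ⟨e, he, hfin⟩ := hflat F a1 a2 a3
  refine ⟨fun i => e i, ?_, ?_⟩
  · rw [← EuclideanSpace.real_norm_sq_eq, he, one_pow]
  · have e1 := integral_scale
      (fun x => R * (psi u x * wn u x) * (1 - tau (fun i => e i) u x ^ 2)) hR (zero_le_one (α := ℝ))
    have e2 : ∀ y : EE (m + 1), MM u R y * (1 - inner ℝ (NN u R y) e ^ 2)
        = (fun x => R * (psi u x * wn u x) * (1 - tau (fun i => e i) u x ^ 2)) (ofR m R y) := by
      intro y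
      have e4 : inner ℝ (NN u R y) e = tau (fun i => e i) u (ofR m R y) := by
        rw [inner_NN, tau_eq]
      rw [e4]
      rfl
    simp_rw [e2] at hfin
    rw [e1, mul_one] at hfin
    have e3 : ∀ x, R * (psi u x * wn u x) * (1 - tau (fun i => e i) u x ^ 2)
        = R * (psi u x * wn u x * (1 - tau (fun i => e i) u x ^ 2)) := fun x => by ring
    simp_rw [e3] at hfin
    rw [integral_const_mul] at hfin
    set I := ∫ x in blE (m + 2) R, psi u x * wn u x * (1 - tau (fun i => e i) u x ^ 2) with hI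
    have e5 : I = (R ^ (m + 1)) * ((R ^ (m + 2))⁻¹ * (R * I)) := by field_simp; ring
    rw [e5]
    calc R ^ (m + 1) * ((R ^ (m + 2))⁻¹ * (R * I)) ≤ R ^ (m + 1) * ε := by gcongr
      _ = ε * R ^ (m + 1) := by ring

end FlatU

end Vale.Agent.P134.H355
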