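import Vale.Agent.P134.H355.Caps

/-!
# P134, block M4-B1/B2: two nonparallel caps cannot both carry mass
-/

open MeasureTheory Set Metric

namespace Vale.Agent.P134.H355

section Pair

variable {m : ℕ} {G μ : EE (m + 1) → ℝ} {ν : EE (m + 1) → EE (m + 1)}

lemma inner_frame {B : OrthonormalBasis (Fin (m + 2)) ℝ (EE (m + 1))} {w : EE (m + 1)} {c s : ℝ}
    (hw : w = c • B 0 + s • B (Fin.succ 0)) (z : Fin (m + 1) → ℝ) (t : ℝ) :
    inner ℝ (iot B z + t • B 0) w = c * t + s * z 0 := by
  rw [hw, inner_add_right, inner_smul_right, inner_smul_right, inner_pt_zero, inner_pt_succ]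

lemma lint_bound (F : Fld G μ ν) {r σ C : ℝ} (hr : 0 < r) (hσ : 0 < σ) (hC : r * C ≤ σ / 4)
    {w : EE (m + 1)} (hw : ‖w‖ = 1) (B : OrthonormalBasis (Fin (m + 2)) ℝ (EE (m + 1)))
    {Z : Set (Fin (m + 1) → ℝ)} (hZ : IsCompact Z) {s t : ℝ} (hst : s ≤ t)
    (hsub : ∀ z ∈ Z, ∀ τ ∈ Icc s t, iot B z + τ • B 0 ∈ closedBall (0 : EE (m + 1)) C)
    (hlow : ∀ z ∈ Z, ∀ τ ∈ Icc s t, σ / 2 ≤ |inner ℝ (iot B z + τ • B 0) w|) :
    ∫ z in Z, ∫ τ in s..t, cpx r ν w (iot B z + τ • B 0) * μ (iot B z + τ • B 0)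
      ≤ 16 / σ ^ 2 * ∫ x in closedBall (0 : EE (m + 1)) C, μ x * inner ℝ x (ν x) ^ 2 := by
  have c1 := (F.contDiff_cpx r w).continuous
  have c2 := F.cμ
  have c3 := F.cν.continuous
  have c4 : Continuous fun x : EE (m + 1) => 16 / σ ^ 2 * (μ x * (inner ℝ x (ν x) : ℝ) ^ 2) :=
    continuous_const.mul (c2.mul ((continuous_id.inner c3).pow 2))
  have c5 : Continuous fun x : EE (m + 1) => cpx r ν w x * μ x := c1.mul c2
  have hz : ∀ g : EE (m + 1) → ℝ, Continuous g →
      Continuous fun z : Fin (m + 1) → ℝ => ∫ τ in s..t, g (iot B z + τ • B 0) := fun g hg =>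
    intervalIntegral.continuous_parametric_intervalIntegral_of_continuous'
      (f := fun (z : Fin (m + 1) → ℝ) (τ : ℝ) => g (iot B z + τ • B 0)) (by fun_prop) _ _
  calc ∫ z in Z, ∫ τ in s..t, cpx r ν w (iot B z + τ • B 0) * μ (iot B z + τ • B 0)
      ≤ ∫ z in Z, ∫ τ in s..t, (fun x => 16 / σ ^ 2 * (μ x * (inner ℝ x (ν x) : ℝ) ^ 2))
          (iot B z + τ • B 0) := by
        apply setIntegral_mono_on ((hz _ c5).continuousOn.integrableOn_compact hZ)
          ((hz _ c4).continuousOn.integrableOn_compact hZ) hZ.measurableSet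
        intro z hz'
        apply intervalIntegral.integral_mono_on hst
        · exact (c5.comp (by fun_prop : Continuous fun τ : ℝ => iot B z + τ • B 0)).intervalIntegrable _ _
        · exact (c4.comp (by fun_prop : Continuous fun τ : ℝ => iot B z + τ • B 0)).intervalIntegrable _ _
        intro τ hτ
        have h1 := hsub z hz' τ hτ
        rw [mem_closedBall, dist_zero_right] at h1
        exact F.cap_bound hr hσ hC hw h1 (hlow z hz' τ hτ)
    _ ≤ ∫ x in closedBall (0 : EE (m + 1)) C,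
          (fun x => 16 / σ ^ 2 * (μ x * (inner ℝ x (ν x) : ℝ) ^ 2)) x := by
        apply cov_le B c4 _ hZ hst (isCompact_closedBall _ _) hsub
        intro x
        have := F.μ0 x
        positivity
    _ = _ := by rw [integral_const_mul]

lemma lint_le (F : Fld G μ ν) {r : ℝ} {w : EE (m + 1)}
    (B : OrthonormalBasis (Fin (m + 2)) ℝ (EE (m + 1)))
    {Z : Set (Fin (m + 1) → ℝ)} (hZ : IsCompact Z) {s t : ℝ} (hst : s ≤ t) :
    ∫ z in Z, lint G (cpx r ν w) (iot B) (B 0) s t z
      ≤ ∫ z in Z, ∫ τ in s..t, cpx r ν w (iot B z + τ • B 0) * μ (iot B z + τ • B 0) := by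
  have c1 := (F.contDiff_cpx r w).continuous
  have c2 := F.cμ
  have c5 : Continuous fun x : EE (m + 1) => cpx r ν w x * μ x := c1.mul c2
  have hz : ∀ g : EE (m + 1) → ℝ, Continuous g →
      Continuous fun z : Fin (m + 1) → ℝ => ∫ τ in s..t, g (iot B z + τ • B 0) := fun g hg =>
    intervalIntegral.continuous_parametric_intervalIntegral_of_continuous'
      (f := fun (z : Fin (m + 1) → ℝ) (τ : ℝ) => g (iot B z + τ • B 0)) (by fun_prop) _ _
  apply setIntegral_mono_on
    ((continuous_lint F.cG (F.contDiff_cpx r w) s t).continuousOn.integrableOn_compact hZ)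
    ((hz _ c5).continuousOn.integrableOn_compact hZ) hZ.measurableSet
  intro z hz'
  unfold lint
  apply intervalIntegral.integral_mono_on hst
  · have := continuous_den F.cG (F.contDiff_cpx r w) (B 0)
    exact (this.comp (by fun_prop : Continuous fun τ : ℝ => iot B z + τ • B 0)).intervalIntegrable _ _
  · exact (c5.comp (by fun_prop : Continuous fun τ : ℝ => iot B z + τ • B 0)).intervalIntegrable _ _
  intro τ _
  unfold den
  rw [F.grad]
  have h1 := real_inner_le_norm (ν (iot B z + τ • B 0)) (B 0)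
  rw [F.nν, B.orthonormal.1, mul_one] at h1
  have h2 := mul_nonneg (cpx_nonneg r ν w (iot B z + τ • B 0)) (F.μ0 (iot B z + τ • B 0))
  nlinarith

lemma avg_ge (F : Fld G μ ν) {r σ : ℝ} (hr : 0 < r) (hσ : 0 < σ) (hrσ : r ≤ σ / 2)
    {w : EE (m + 1)} (hw : ‖w‖ = 1) (B : OrthonormalBasis (Fin (m + 2)) ℝ (EE (m + 1)))
    (hwb : σ ≤ inner ℝ w (B 0)) {T : ℝ} (hT : 1 ≤ T) :
    (volume (Icc (fun _ : Fin (m + 1) => (-1:ℝ)) (fun _ => 1))).toReal⁻¹ * (σ / 2
        * ∫ x in closedBall (0 : EE (m + 1)) 1, cpx r ν w x * μ x)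
      ≤ avg (Icc (fun _ : Fin (m + 1) => (-1:ℝ)) (fun _ => 1))
          (massP T G (cpx r ν w) (iot B) (B 0)) := by
  unfold avg
  apply mul_le_mul_of_nonneg_left _ (inv_nonneg.mpr ENNReal.toReal_nonneg)
  have c1 := (F.contDiff_cpx r w).continuous
  have c2 := F.cμ
  have c5 : Continuous fun x : EE (m + 1) => σ / 2 * (cpx r ν w x * μ x) :=
    continuous_const.mul (c1.mul c2)
  have hz : ∀ g : EE (m + 1) → ℝ, Continuous g →
      Continuous fun z : Fin (m + 1) → ℝ => ∫ τ in (-T)..T, g (iot B z + τ • B 0) := fun g hg =>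
    intervalIntegral.continuous_parametric_intervalIntegral_of_continuous'
      (f := fun (z : Fin (m + 1) → ℝ) (τ : ℝ) => g (iot B z + τ • B 0)) (by fun_prop) _ _
  calc σ / 2 * ∫ x in closedBall (0 : EE (m + 1)) 1, cpx r ν w x * μ x
      = ∫ x in closedBall (0 : EE (m + 1)) 1, σ / 2 * (cpx r ν w x * μ x) := by
        rw [integral_const_mul]
    _ ≤ ∫ z in Icc (fun _ : Fin (m + 1) => (-1:ℝ)) (fun _ => 1), ∫ τ in (-T)..T,
          (fun x => σ / 2 * (cpx r ν w x * μ x)) (iot B z + τ • B 0) := by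
        apply cov_ge B c5 _ isCompact_Icc (by linarith)
        · intro z τ h
          rw [mem_closedBall, dist_zero_right] at h
          obtain ⟨h1, h2⟩ := mem_of_norm_le B h
          refine ⟨⟨fun j => (abs_le.mp (h1 j)).1, fun j => (abs_le.mp (h1 j)).2⟩, ?_, ?_⟩
          · linarith [(abs_le.mp h2).1]
          · linarith [(abs_le.mp h2).2]
        · intro x
          have := F.μ0 x
          have := cpx_nonneg r ν w x
          positivity
    _ ≤ _ := by
        apply setIntegral_mono_on ((hz _ c5).continuousOn.integrableOn_compact isCompact_Icc)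
          ((continuous_lint F.cG (F.contDiff_cpx r w) (-T) T).continuousOn.integrableOn_compact
            isCompact_Icc) isCompact_Icc.measurableSet
        intro z _

        unfold lint
        apply intervalIntegral.integral_mono_on (by linarith)
        · exact (c5.comp (by fun_prop : Continuous fun τ : ℝ => iot B z + τ • B 0)).intervalIntegrable _ _
        · have := continuous_den F.cG (F.contDiff_cpx r w) (B 0)
          exact (this.comp (by fun_prop : Continuous fun τ : ℝ => iot B z + τ • B 0)).intervalIntegrable _ _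
        intro τ _
        set x := iot B z + τ • B 0
        unfold den
        rw [F.grad]
        by_cases h0 : cpx r ν w x = 0
        · rw [h0]; simp
        · have h3 := F.norm_sub_le hr hw h0
          have h4 : |inner ℝ (ν x - w) (B 0)| ≤ ‖ν x - w‖ * ‖B 0‖ := abs_real_inner_le_norm _ _
          rw [inner_sub_left, B.orthonormal.1, mul_one] at h4
          have h5 := (abs_le.mp h4).1
          have h6 : σ / 2 ≤ inner ℝ (ν x) (B 0) := by linarith
          have h7 := mul_nonneg (cpx_nonneg r ν w x) (F.μ0 x)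
          calc σ / 2 * (cpx r ν w x * μ x) ≤ inner ℝ (ν x) (B 0) * (cpx r ν w x * μ x) :=
                mul_le_mul_of_nonneg_right h6 h7
            _ = _ := by ring

lemma exists_mul_le_integral {f : ℝ → ℝ} (hf : Continuous f) {a b : ℝ} (hab : a ≤ b) :
    ∃ t ∈ Icc a b, (b - a) * f t ≤ ∫ s in a..b, f s := by
  obtain ⟨t, ht, hmin⟩ := (isCompact_Icc (a := a) (b := b)).exists_isMinOn ⟨a, le_rfl, hab⟩
    hf.continuousOn
  refine ⟨t, ht, ?_⟩
  calc (b - a) * f t = ∫ _s in a..b, f t := by simp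
    _ ≤ ∫ s in a..b, f s := intervalIntegral.integral_mono_on hab
        (continuous_const.intervalIntegrable _ _) (hf.intervalIntegrable _ _)
        fun s hs => hmin hs

/-- face integral -/
noncomputable def face (g : EE (m + 1) → ℝ) (B : OrthonormalBasis (Fin (m + 2)) ℝ (EE (m + 1)))
    (t : ℝ) : ℝ :=
  ∫ z in Icc (fun _ : Fin (m + 1) => (-1:ℝ)) (fun _ => 1), g (iot B z + t • B 0)

lemma continuous_face {g : EE (m + 1) → ℝ} (hg : Continuous g)
    (B : OrthonormalBasis (Fin (m + 2)) ℝ (EE (m + 1))) : Continuous (face g B) := by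
  unfold face
  exact continuous_parametric_integral_of_continuous
    (f := fun (t : ℝ) (z : Fin (m + 1) → ℝ) => g (iot B z + t • B 0)) (by fun_prop) isCompact_Icc

lemma integral_face {g : EE (m + 1) → ℝ} (hg : Continuous g)
    (B : OrthonormalBasis (Fin (m + 2)) ℝ (EE (m + 1))) {s t : ℝ} (hst : s ≤ t) :
    ∫ τ in s..t, face g B τ = ∫ z in Icc (fun _ : Fin (m + 1) => (-1:ℝ)) (fun _ => 1),
      ∫ τ in s..t, g (iot B z + τ • B 0) := by
  unfold face
  rw [swap_interval (f := fun z τ => g (iot B z + τ • B 0)) (by fun_prop) isCompact_Icc hst]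

lemma volume_cube : (volume (Icc (fun _ : Fin (m + 1) => (-1:ℝ)) (fun _ => 1))).toReal
    = 2 ^ (m + 1) := by
  rw [Real.volume_Icc_pi_toReal (fun _ => by norm_num)]
  norm_num

/-- the two half cubes -/
def Zpl (m : ℕ) : Set (Fin (m + 1) → ℝ) := Icc (fun i => if i = 0 then 1 / 2 else -1) (fun _ => 1)
def Zmi (m : ℕ) : Set (Fin (m + 1) → ℝ) := Icc (fun _ => -1) (fun i => if i = 0 then -1 / 2 else 1)

lemma volume_Zpl : (volume (Zpl m)).toReal = 2 ^ m / 2 := by
  unfold Zpl
  rw [Real.volume_Icc_pi_toReal, Fin.prod_univ_succ]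
  · simp only [Fin.succ_ne_zero, if_true, if_false]
    norm_num
    ring
  · intro i
    by_cases h : i = 0 <;> simp [h] <;> norm_num

lemma volume_Zmi : (volume (Zmi m)).toReal = 2 ^ m / 2 := by
  unfold Zmi
  rw [Real.volume_Icc_pi_toReal, Fin.prod_univ_succ]
  · simp only [Fin.succ_ne_zero, if_true, if_false]
    norm_num
    ring
  · intro i
    by_cases h : i = 0 <;> simp [h] <;> norm_num

lemma Zpl_sub : Zpl m ⊆ Icc (fun _ : Fin (m + 1) => (-1:ℝ)) (fun _ => 1) := by
  unfold Zpl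
  apply Icc_subset_Icc _ le_rfl
  intro i
  by_cases h : i = 0 <;> simp [h]
  norm_num

lemma Zmi_sub : Zmi m ⊆ Icc (fun _ : Fin (m + 1) => (-1:ℝ)) (fun _ => 1) := by
  unfold Zmi
  apply Icc_subset_Icc le_rfl
  intro i
  by_cases h : i = 0 <;> simp [h]
  norm_num

lemma abs_of_mem {z : Fin (m + 1) → ℝ}
    (hz : z ∈ Icc (fun _ : Fin (m + 1) => (-1:ℝ)) (fun _ => 1)) (j : Fin (m + 1)) : |z j| ≤ 1 :=
  abs_le.mpr ⟨hz.1 j, hz.2 j⟩

end Pair

end Vale.Agent.P134.H355
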