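import Vale.Agent.P134.H355.Flat
import Vale.Agent.P134.SM.Nu2

/-!
# P134, block M4-B1/B2: from `u` on `Fin n → ℝ` to the scaled field
-/

open MeasureTheory Set Metric Filter Topology Pointwise

namespace Vale.Agent.P134.H355

open Vale.Agent.P134 Vale.Agent.P134.SM

section Scale

variable {m : ℕ}

/-- scaled forgetful map -/
noncomputable def ofR (m : ℕ) (R : ℝ) : EE (m + 1) →L[ℝ] (Fin (m + 2) → ℝ) :=
  R • ((EuclideanSpace.equiv (Fin (m + 2)) ℝ : EuclideanSpace ℝ (Fin (m + 2)) ≃L[ℝ]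
    (Fin (m + 2) → ℝ)) : EuclideanSpace ℝ (Fin (m + 2)) →L[ℝ] (Fin (m + 2) → ℝ))

lemma ofR_apply (R : ℝ) (y : EE (m + 1)) (i : Fin (m + 2)) : ofR m R y i = R * y i := rfl

lemma ofR_eq (R : ℝ) (y : EE (m + 1)) : ofR m R y = WithLp.ofLp (R • y) := rfl

/-- primitive of `1 - t²` -/
noncomputable def gp (t : ℝ) : ℝ := t - t ^ 3 / 3

/-- potential -/
noncomputable def GG (u : (Fin (m + 2) → ℝ) → ℝ) (R : ℝ) (y : EE (m + 1)) : ℝ := gp (u (ofR m R y))

/-- density -/
noncomputable def MM (u : (Fin (m + 2) → ℝ) → ℝ) (R : ℝ) (y : EE (m + 1)) : ℝ :=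
  R * (psi u (ofR m R y) * wn u (ofR m R y))

/-- normal -/
noncomputable def NN (u : (Fin (m + 2) → ℝ) → ℝ) (R : ℝ) (y : EE (m + 1)) : EE (m + 1) :=
  WithLp.toLp 2 (fun i => nu u i (ofR m R y))

variable {u : (Fin (m + 2) → ℝ) → ℝ}

lemma nu_contDiff (hu : Sol u) (hp : ∀ x, 0 < gs u x) (i : Fin (m + 2)) : ContDiff ℝ 1 (nu u i) :=
  contDiff_iff_contDiffAt.mpr fun x => (Sol.nu_c2 hu (hp x) i).of_le (by norm_num)

lemma wn_continuous (hu : Sol u) : Continuous (wn u) :=
  (Sol.gs_nat hu 0).continuous.sqrt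

lemma inner_NN (R : ℝ) (y v : EE (m + 1)) :
    inner ℝ (NN u R y) v = ∑ i, nu u i (ofR m R y) * v i := by
  rw [PiLp.inner_apply]
  refine Finset.sum_congr rfl fun i _ => ?_
  simp [NN, mul_comm]

lemma fld (hu : Sol u) (hp : ∀ x, 0 < gs u x) {R : ℝ} (hR : 0 < R) :
    Fld (GG u R) (MM u R) (NN u R) where
  cG := by
    unfold GG gp
    have h1 : ContDiff ℝ 2 fun y => u (ofR m R y) := hu.c2.comp (ofR m R).contDiff
    exact h1.sub ((h1.pow 3).div_const 3)
  cν := by
    rw [contDiff_euclidean]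
    intro i
    exact (nu_contDiff hu hp i).comp (ofR m R).contDiff
  cμ := by
    unfold MM
    have h1 := hu.psi_contDiff.continuous
    have h2 := wn_continuous hu
    have h3 := (ofR m R).continuous
    exact continuous_const.mul ((h1.comp h3).mul (h2.comp h3))
  μ0 := fun x => mul_nonneg hR.le (mul_nonneg (hu.psi_nonneg _) (wn_nonneg _ _))
  nν := by
    intro x
    rw [← sq_eq_sq₀ (norm_nonneg _) (by norm_num), EuclideanSpace.real_norm_sq_eq]
    simp only [NN, one_pow]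
    exact sum_nu_sq (hp _)
  grad := by
    intro x v
    have hd : HasFDerivAt u (fderiv ℝ u (ofR m R x)) (ofR m R x) :=
      ((hu.c2.differentiable (by norm_num)) _).hasFDerivAt
    have h1 : HasFDerivAt (fun y => u (ofR m R y)) ((fderiv ℝ u (ofR m R x)).comp (ofR m R)) x :=
      hd.comp x (ofR m R).hasFDerivAt
    have h2 : HasDerivAt gp (1 - (u (ofR m R x)) ^ 2) (u (ofR m R x)) := by
      unfold gp
      have := (hasDerivAt_id (u (ofR m R x))).sub ((hasDerivAt_pow 3 (u (ofR m R x))).div_const 3)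
      have e : (1:ℝ) - (u (ofR m R x)) ^ 2 = 1 - ((3:ℕ):ℝ) * (u (ofR m R x)) ^ (3 - 1) / 3 := by
        norm_num
      rw [e]
      exact this
    have h3 := h2.comp_hasFDerivAt x h1
    have h4 : GG u R = gp ∘ fun y => u (ofR m R y) := rfl
    rw [h4, h3.fderiv, inner_NN]
    simp only [smul_apply, ContinuousLinearMap.comp_apply, smul_eq_mul]
    rw [fderiv_eq_sum_pd]
    unfold MM psi
    have e : ∀ i, ofR m R v i * pd i u (ofR m R x)
        = R * wn u (ofR m R x) * (nu u i (ofR m R x) * v i) := by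
      intro i
      rw [pd_eq_wn_mul_nu (hp _) i, ofR_apply]; ring
    simp_rw [e]
    rw [← Finset.mul_sum]
    ring

lemma norm_fderiv_NN (hu : Sol u) (hp : ∀ x, 0 < gs u x) {R : ℝ} (hR : 0 < R) (y : EE (m + 1)) :
    ‖fderiv ℝ (NN u R) y‖ ≤ R * √(dn u (ofR m R y)) := by
  have hN : DifferentiableAt ℝ (NN u R) y := ((fld hu hp hR).cν.differentiable (by norm_num)) y
  apply ContinuousLinearMap.opNorm_le_bound _ (by positivity)
  intro v
  have hcomp : ∀ i, (fderiv ℝ (NN u R) y v) i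
      = ∑ j, (R * v j) * pd j (nu u i) (ofR m R y) := by
    intro i
    have h1 : HasFDerivAt (fun z => NN u R z i)
        ((EuclideanSpace.proj i : EuclideanSpace ℝ (Fin (m + 2)) →L[ℝ] ℝ).comp
          (fderiv ℝ (NN u R) y)) y :=
      (EuclideanSpace.proj i : EuclideanSpace ℝ (Fin (m + 2)) →L[ℝ] ℝ).hasFDerivAt.comp y
        hN.hasFDerivAt
    have hd : HasFDerivAt (nu u i) (fderiv ℝ (nu u i) (ofR m R y)) (ofR m R y) :=
      (((nu_contDiff hu hp i).differentiable (by norm_num)) _).hasFDerivAt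
    have h2 : HasFDerivAt (fun z => NN u R z i)
        ((fderiv ℝ (nu u i) (ofR m R y)).comp (ofR m R)) y :=
      hd.comp y (ofR m R).hasFDerivAt
    have h3 := h1.unique h2
    have h4 := congrArg (fun L => L v) h3
    simp only [ContinuousLinearMap.comp_apply] at h4
    rw [fderiv_eq_sum_pd] at h4
    exact h4
  have hsq : ‖fderiv ℝ (NN u R) y v‖ ^ 2 ≤ (R * √(dn u (ofR m R y)) * ‖v‖) ^ 2 := by
    rw [EuclideanSpace.real_norm_sq_eq]
    calc ∑ i, (fderiv ℝ (NN u R) y v) i ^ 2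
        = ∑ i, (∑ j, (R * v j) * pd j (nu u i) (ofR m R y)) ^ 2 := by
          refine Finset.sum_congr rfl fun i _ => ?_
          rw [hcomp i]
      _ ≤ ∑ i, (∑ j, (R * v j) ^ 2) * ∑ j, pd j (nu u i) (ofR m R y) ^ 2 := by
          apply Finset.sum_le_sum
          intro i _
          exact Finset.sum_mul_sq_le_sq_mul_sq _ _ _
      _ = (R * √(dn u (ofR m R y)) * ‖v‖) ^ 2 := by
          rw [← Finset.mul_sum, mul_pow, mul_pow, Real.sq_sqrt (dn_nonneg _ _),
            EuclideanSpace.real_norm_sq_eq]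
          simp_rw [mul_pow]
          rw [← Finset.mul_sum]
          unfold dn
          ring
  exact (sq_le_sq₀ (norm_nonneg _) (by positivity)).mp hsq

/-- Closed Euclidean ball. -/
def blE (n : ℕ) (R : ℝ) : Set (Fin n → ℝ) := {x | rho Finset.univ x ≤ R ^ 2}

lemma integral_scale (f : (Fin (m + 2) → ℝ) → ℝ) {R ρ : ℝ} (hR : 0 < R) (hρ : 0 ≤ ρ) :
    ∫ y in closedBall (0 : EE (m + 1)) ρ, f (ofR m R y)
      = (R ^ (m + 2))⁻¹ * ∫ x in blE (m + 2) (R * ρ), f x := by
  have h1 := Measure.setIntegral_comp_smul_of_pos (volume : Measure (EE (m + 1)))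
    (fun y => f (WithLp.ofLp y)) (closedBall (0 : EE (m + 1)) ρ) hR
  have h2 : R • closedBall (0 : EE (m + 1)) ρ = closedBall 0 (R * ρ) := by
    rw [smul_closedBall R (0 : EE (m + 1)) hρ, smul_zero, Real.norm_of_nonneg hR.le]
  have h3 : Module.finrank ℝ (EE (m + 1)) = m + 2 := by simp
  rw [h2, h3] at h1
  have h4 : (∫ y in closedBall (0 : EE (m + 1)) ρ, f (ofR m R y))
      = ∫ y in closedBall (0 : EE (m + 1)) ρ, f (WithLp.ofLp (R • y)) := rfl
  rw [h4, h1, smul_eq_mul]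
  congr 1
  have h5 := (PiLp.volume_preserving_ofLp (Fin (m + 2))).setIntegral_preimage_emb
    (MeasurableEquiv.toLp 2 (Fin (m + 2) → ℝ)).symm.measurableEmbedding f (blE (m + 2) (R * ρ))
  have h6 : (WithLp.ofLp : EE (m + 1) → (Fin (m + 2) → ℝ)) ⁻¹' (blE (m + 2) (R * ρ))
      = closedBall 0 (R * ρ) := by
    ext y
    simp only [mem_preimage, blE, Set.mem_ofPred_eq, mem_closedBall, dist_zero_right, rho]
    have h7 := EuclideanSpace.real_norm_sq_eq y
    have h8 : 0 ≤ R * ρ := by positivity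
    rw [← sq_le_sq₀ (norm_nonneg y) h8, h7]
  rw [← h6]
  exact h5

end Scale

end Vale.Agent.P134.H355
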